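import Vale.Agent.P280Z.Al.Defs

/-!
# P280Z, block G2: classes of degree zero on the fibres (the statement)
-/

namespace Vale.Agent.P280Z.NS
variable {A B : Type} [CommRing A] [Algebra ℝ A] [CommRing B] [Algebra ℝ B] (S : NS A B)

/-- the index theorem for the classes of degree zero on fibres of dimension one -/
def WL (n : ℕ) : Prop := ∀ (x y z : ℝ) (b : B), b = x • S.hh + y • S.τ + z • S.pE 1 → S.el b = 0 →
  S.GX.int (S.el (b * b) * S.η ^ (n - 1)) ≤ 0 ∧ (S.el (b * b) = 0 → ∃ c : ℝ, b = c • S.hh)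

end Vale.Agent.P280Z.NS
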