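import Vale.Agent.P280Z.G2.C51
import Vale.Agent.P280Z.Qs.S41

/-!
# P280Z, block G2: the case of dimension four and pseudoindex three
-/

namespace Vale.Agent.P280Z.G2

theorem c41 : Cv.CS 4 1 :=
  R1.cs1_of R1.xt (wlx (by norm_num)) fun _ h x w => Qs.s41 h x.ex w

end Vale.Agent.P280Z.G2
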