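import Vale.Agent.P280Z.En.Qe
import Vale.Agent.P280Z.Cv.Cs

/-!
# P280Z, block G2: fivefolds whose space of lines is a quadric (definitions, statements)
-/

open scoped Manifold ContDiff Topology Matrix
open Set Filter
open Vale.Agent.P272.K Vale.Agent.P285.H281.FD Vale.Agent.P281Z
open Vale.Agent.P277Z (Hol)
open Vale.Agent.P277Z.Slc (dd)
open Vale.Agent.P280Z.Mp (Eqs)
open Vale.Agent.P280Z.Ld (Va)
open Module (finrank)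

noncomputable section

namespace Vale.Agent.P280Z.G2

/-! ### cohomology -/

/-- the output of the numerical machine -/
structure Out {A B : Type} [CommRing A] [Algebra ℝ A] [CommRing B] [Algebra ℝ B] (S : NS A B) :
    Prop where
  rel : S.hh ^ 2 - S.hh * S.hc + S.hc ^ 2 = 0
  pE : (3 : ℝ) • S.pE 1 = (2 : ℝ) • S.hc - S.hh
  el : S.el (-S.τ) = 3
  vol : S.GX.int (S.η ^ 5) = 18

/-- the numerical data; `h = e^* η`, `k = p^* κ` -/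
structure Nm (T : CT) {X K : Mf 5} {U : Mf 6} (p : U.X → K.X) (e : U.X → X.X) (η : T.H X)
    (κ : T.H K) (h k : T.H U) : Prop where
  sp : Sub 6 5 p
  se : Sub 6 5 e
  eh : T.pull se.hol η = h
  pk : T.pull sp.hol κ = k
  cX : ConnectedSpace X.X
  cK : ConnectedSpace K.X
  cU : ConnectedSpace U.X
  ce : ∀ x, IsConnected (e ⁻¹' {x})
  cp : ∀ l, IsConnected (p ⁻¹' {l})
  kη : T.Kc X η
  kκ : T.Kc K κ
  kU : ∃ a b : ℝ, T.Kc U (a • h + b • k)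
  kF : ∀ (Z : Mf 1) (i : Z.X → U.X) (x : X.X) (hi : Emb 1 6 i (e ⁻¹' {x})),
    T.Kc Z (T.pull hi.hol k)
  b2 : ∀ a, T.Dg X 1 a → ∃ c : ℝ, a = c • η
  canX : T.c1 X (Bd.can 5 X.X) = (-3 : ℝ) • η
  canK : T.c1 K (Bd.can 5 K.X) = (-5 : ℝ) • κ
  canU : T.c1 U (Bd.can 6 U.X) = (-2 : ℝ) • (h + k)
  dp : T.push p h = 1
  de : T.push e k = 1
  rel : k * k = h * k - (1 / 3 : ℝ) • (h * h)
  vol : T.int K (κ ^ 5) = 2

/-- row NUM -/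
def NUM : Prop := ∀ T : CT, Gm.HRR T → ∀ {N r d D δ : ℕ} {V : Mf 5} {P : Eqs r N}
  {pt : Cm N → V.X} (F : Mp.Fam V P pt d D 5) (E : VB F.U.X), Cv.Sit T δ F 1 E →
  Out (Cv.nsF T F E) → ∃ η κ h k, Nm T F.p F.e η κ h k

/-- row CUT: the line bundle of a smooth hypersurface -/
def CUT : Prop := ∀ {n : ℕ} (V : Mf (n + 1)) (Z : Mf n) (i : Z.X → V.X) (S : Set V.X),
  Emb n (n + 1) i S → ∃ (D : Bd V.X) (s : D.ι → V.X → ℂ), Cut D s i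

/-- row DIAG: the fibre square of a submersion with connected fibres of dimension one -/
def DIAG : Prop := ∀ T : CT, T.OK → ∀ {n : ℕ} (X : Mf n) (U : Mf (n + 1)) (e : U.X → X.X)
  (se : Sub (n + 1) n e), ConnectedSpace U.X → (∀ x, IsPreconnected (e ⁻¹' {x})) →
  ∃ (W : Mf (n + 1 + 1)) (q1 q2 : W.X → U.X) (dg : U.X → W.X) (D : Bd W.X) (s : D.ι → W.X → ℂ)
    (_ : Cart e e q1 q2) (hc : Cut D s dg), (∀ u, q1 (dg u) = u) ∧ (∀ u, q2 (dg u) = u) ∧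
    PreconnectedSpace W.X ∧ T.pull hc.emb.hol (T.c1 W D) =
      T.pull se.hol (T.c1 X (Bd.can n X.X)) - T.c1 U (Bd.can (n + 1) U.X)

/-- quantification over the numerical data -/
def All (R : ∀ (T : CT) {X K : Mf 5} {U : Mf 6}, (U.X → K.X) → (U.X → X.X) → T.H K → Prop) :
    Prop :=
  ∀ T : CT, T.OK → Gm.HRR T → ∀ {X K : Mf 5} {U : Mf 6} (p : U.X → K.X) (e : U.X → X.X) η κ h k,
    Nm T p e η κ h k → R T p e κ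

/-- the second Betti number of `K` is one -/
def B2 (T : CT) (K : Mf 5) (κ : T.H K) : Prop := ∀ a, T.Dg K 1 a → ∃ c : ℝ, a = c • κ

/-- row B2K -/
def B2K : Prop := All fun T _ K _ _ _ κ => B2 T K κ

/-- row BPF -/
def BPF : Prop := All fun T _ K _ _ _ κ => B2 T K κ → ∃ M, IsLB 5 M ∧ Bpf 5 M ∧ T.c1 K M = κ

/-- `K` is embedded in the smooth quadric of the matrix `B` -/
structure Qd {K : Mf 5} (M : Bd K.X) (s : Fin 7 → M.ι → K.X → ℂ) (B : Matrix (Fin 7) (Fin 7) ℂ) :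
    Prop where
  va : Va 5 M s
  sym : Bᵀ = B
  det : B.det ≠ 0
  tan : ∀ a x (χ : Chart 5 K.X), x ∈ M.U a → At χ x → ∀ w, (fun j => s j a x) ⬝ᵥ B *ᵥ w = 0 ↔
    ∃ c v, w = fun j => c * s j a x + dd (s j a) χ x v

/-- row SQD: the sections of the square -/
def SQD : Prop := ∀ T : CT, T.OK → ∀ {n : ℕ} (V : Mf (n + 1)) (L : Bd V.X) (β : T.H V),
  En.MD T V L β 2 → 2 * Ld.h0 (n + 1) (L.pow 2) + 2 = (n + 3) * (n + 4)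

/-- row ONE: there is only one quadric -/
def ONE : Prop := En.ForA fun A _ _ => ∀ (s : Fin 7 → A) (W : Submodule ℂ A),
  W = Submodule.span ℂ (range s) → finrank ℂ ↥(W * W) = 27 →
  ∃ B₀, En.Rl s B₀ ∧ ∀ B, En.Rl s B → ∃ c : ℂ, B = c • B₀

/-- row QB -/
def QB : Prop := ∀ T : CT, T.OK → ∀ (K : Mf 5) (M : Bd K.X) (β : T.H K),
  En.MD (n := 4) T K M β 2 → ∃ s B, Qd M s B

/-! ### lines and planes -/

/-- the fibres of `e` are lines -/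
structure Ln {X K : Mf 5} {U : Mf 6} (p : U.X → K.X) (e : U.X → X.X) (M : Bd K.X)
    (s : Fin 7 → M.ι → K.X → ℂ) (ℓ : X.X → Submodule ℂ (Cm 7)) : Prop where
  dim : ∀ x, finrank ℂ (ℓ x) = 2
  mem : ∀ u a, p u ∈ M.U a → (fun j => s j a (p u)) ∈ ℓ (e u)
  onto : ∀ x, ∀ w ∈ ℓ x, ∃ u a, ∃ c : ℂ, e u = x ∧ p u ∈ M.U a ∧ w = c • fun j => s j a (p u)
  der : ∀ u a (χ : Chart 6 U.X) (χ' : Chart 5 X.X) w, p u ∈ M.U a → At χ u → At χ' (e u) →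
    df e χ χ' u w = 0 → (fun j => dd (fun y => s j a (p y)) χ u w) ∈ ℓ (e u)
  imm : ∀ u a (χ : Chart 6 U.X) (χ' : Chart 5 X.X) w (c : ℂ), p u ∈ M.U a → At χ u →
    At χ' (e u) → df e χ χ' u w = 0 →
    (∀ j, dd (fun y => s j a (p y)) χ u w = c * s j a (p u)) → w = 0

/-- row CRV: a base point free system of degree one on a rational curve -/
def CRV : Prop := ∀ T : CT, T.OK → ∀ (Z : Mf 1) (L : Bd Z.X) {N : ℕ} (t : Fin N → L.ι → Z.X → ℂ),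
  ConnectedSpace Z.X → IsLB 1 L → (∀ j, t j ∈ Ld.Γ 1 L) → Ld.Bs L t = ∅ → T.Kc Z (T.c1 Z L) →
  T.c1 Z (Bd.can 1 Z.X) = (-2 : ℝ) • T.c1 Z L → T.int Z (T.c1 Z L) = 1 →
  ∃ ℓ : Submodule ℂ (Cm N), finrank ℂ ℓ = 2 ∧ (∀ z a, z ∈ L.U a → (fun j => t j a z) ∈ ℓ) ∧
    (∀ w ∈ ℓ, ∃ z a, ∃ c : ℂ, z ∈ L.U a ∧ w = c • fun j => t j a z) ∧
    ∀ z a (ψ : Chart 1 Z.X) v, z ∈ L.U a → At ψ z → (fun j => dd (t j a) ψ z v) ∈ ℓ ∧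
      ∀ c : ℂ, (∀ j, dd (t j a) ψ z v = c * t j a z) → v = 0

/-- row LINE -/
def LINE : Prop := All fun T _ K _ p e κ => ∀ (M : Bd K.X) s, Va 5 M s → T.c1 K M = κ →
  ∃ ℓ, Ln p e M s ℓ

/-- row JAC: Wronskians along the fibres -/
def JAC : Prop := ∀ {n : ℕ} (X : Mf n) (U : Mf (n + 1)) (e : U.X → X.X) (se : Sub (n + 1) n e)
  (L : Bd U.X) {N : ℕ} (t : Fin N → L.ι → U.X → ℂ), IsLB (n + 1) L → (∀ j, IsSec (n + 1) L (t j)) →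
  ∃ (R : Bd U.X) (J : Fin N → Fin N → R.ι → U.X → ℂ), IsLB (n + 1) R ∧
    (∀ i j, IsSec (n + 1) R (J i j)) ∧
    (∀ T : CT, T.OK → T.c1 U R = (2 : ℝ) • T.c1 U L + T.c1 U (Bd.can (n + 1) U.X) -
      T.pull se.hol (T.c1 X (Bd.can n X.X))) ∧
    ∀ u, ∃ (r : R.ι) (a : L.ι) (χ : Chart (n + 1) U.X) (χ' : Chart n X.X) (w : Cm (n + 1)),
      u ∈ R.U r ∧ u ∈ L.U a ∧ At χ u ∧ At χ' (e u) ∧ w ≠ 0 ∧ df e χ χ' u w = 0 ∧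
      ∀ i j, J i j r u = t i a u * dd (t j a) χ u w - t j a u * dd (t i a) χ u w

/-- row TWO: a section of a bundle of degree one with two zeros vanishes -/
def TWO : Prop := ∀ T : CT, T.OK → ∀ (Z : Mf 1) (L : Bd Z.X) (σ : L.ι → Z.X → ℂ) (z z' : Z.X),
  PreconnectedSpace Z.X → IsLB 1 L → IsSec 1 L σ → T.int Z (T.c1 Z L) = 1 → z ≠ z' →
  ¬ NZ L σ z → ¬ NZ L σ z' → ∀ y, ¬ NZ L σ y

/-- the lines through a point lie in a plane -/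
def Pl {U K X : Type} (p : U → K) (e : U → X) (ℓ : X → Submodule ℂ (Cm 7)) : Prop :=
  ∀ l, ∃ P : Submodule ℂ (Cm 7), finrank ℂ P ≤ 3 ∧ ∀ u, p u = l → ℓ (e u) ≤ P

/-- row PLANE -/
def PLANE : Prop := All fun T _ K _ p e κ => ∀ (M : Bd K.X) s ℓ, Va 5 M s → T.c1 K M = κ →
  Ln p e M s ℓ → Pl p e ℓ

/-! ### frames -/

/-- the differential of a vector valued function -/
def Dv {n N : ℕ} {X : Mf n} (y : X.X → Cm N) (χ : Chart n X.X) (x : X.X) : Cm n →ₗ[ℂ] Cm N :=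
  LinearMap.pi fun j => (dd (fun x => y x j) χ x : Cm n →L[ℂ] ℂ)

/-- holomorphic frames of a family of isotropic planes -/
structure Fr {n N : ℕ} {X : Mf n} (B : Matrix (Fin N) (Fin N) ℂ) (ℓ : X.X → Submodule ℂ (Cm N))
    {ι : Type} (O : ι → Set X.X) (y z : ι → X.X → Cm N) : Prop where
  sym : Bᵀ = B
  iso : ∀ x, ∀ v ∈ ℓ x, ∀ w ∈ ℓ x, v ⬝ᵥ B *ᵥ w = 0
  opn : ∀ i, IsOpen (O i)
  cov : ∀ x, ∃ i, x ∈ O i
  hy : ∀ i, ∀ x ∈ O i, ∀ j, Hol n (fun x => y i x j) x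
  hz : ∀ i, ∀ x ∈ O i, ∀ j, Hol n (fun x => z i x j) x
  ind : ∀ i, ∀ x ∈ O i, ∀ a b : ℂ, a • y i x + b • z i x = 0 → a = 0 ∧ b = 0
  mem : ∀ i, ∀ x ∈ O i, ∀ w, w ∈ ℓ x ↔ ∃ a b : ℂ, w = a • y i x + b • z i x

/-- row FRM -/
def FRM : Prop := ∀ {X K : Mf 5} {U : Mf 6} (p : U.X → K.X) (e : U.X → X.X) (M : Bd K.X) s B ℓ,
  Sub 6 5 p → Sub 6 5 e → Qd M s B → Ln p e M s ℓ →
  ∃ (ι : Type) (O : ι → Set X.X) (y z : ι → X.X → Cm 7), Fr B ℓ O y z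

/-- row CRM: the differential of a combination of two vectors -/
def CRM : Prop := ∀ {n N : ℕ} (X : Mf n) (y z w : X.X → Cm N) (x : X.X) (χ : Chart n X.X)
  (α β : ℂ), At χ x → (∀ j, Hol n (fun x => y x j) x) → (∀ j, Hol n (fun x => z x j) x) →
  (∀ j, Hol n (fun x => w x j) x) → (∀ a b : ℂ, a • y x + b • z x = 0 → a = 0 ∧ b = 0) →
  (∀ᶠ x' in 𝓝 x, ∃ a b : ℂ, w x' = a • y x' + b • z x') → w x = α • y x + β • z x →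
  ∀ v, ∃ c c' : ℂ, Dv w χ x v = α • Dv y χ x v + β • Dv z χ x v + c • y x + c' • z x

/-- the differentials of the relations of isotropy -/
structure Dr {n N : ℕ} (B : Matrix (Fin N) (Fin N) ℂ) (y z : Cm N) (Y Z : Cm n →ₗ[ℂ] Cm N) :
    Prop where
  sym : Bᵀ = B
  ind : ∀ a b : ℂ, a • y + b • z = 0 → a = 0 ∧ b = 0
  yy : y ⬝ᵥ B *ᵥ y = 0
  yz : y ⬝ᵥ B *ᵥ z = 0
  zz : z ⬝ᵥ B *ᵥ z = 0
  yY : ∀ v, y ⬝ᵥ B *ᵥ Y v = 0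
  zZ : ∀ v, z ⬝ᵥ B *ᵥ Z v = 0
  mix : ∀ v, y ⬝ᵥ B *ᵥ Z v + z ⬝ᵥ B *ᵥ Y v = 0

/-- row DER -/
def DER : Prop := ∀ {n N : ℕ} {X : Mf n} (B : Matrix (Fin N) (Fin N) ℂ)
  (ℓ : X.X → Submodule ℂ (Cm N)) {ι : Type} (O : ι → Set X.X) (y z : ι → X.X → Cm N),
  Fr B ℓ O y z → ∀ i x χ, x ∈ O i → At χ x → Dr B (y i x) (z i x) (Dv (y i) χ x) (Dv (z i) χ x)

/-- the first order data at a point -/
structure Pen (B : Matrix (Fin 7) (Fin 7) ℂ) (y z : Cm 7) (Y Z : Cm 5 →ₗ[ℂ] Cm 7) : Prop where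
  dr : Dr B y z Y Z
  det : B.det ≠ 0
  onto : ∀ α β : ℂ, α ≠ 0 ∨ β ≠ 0 → ∀ w, (α • y + β • z) ⬝ᵥ B *ᵥ w = 0 →
    ∃ v, ∃ a b : ℂ, w = α • Y v + β • Z v + a • y + b • z

/-- the kernels of the pencil are isotropic -/
def Iso (B : Matrix (Fin 7) (Fin 7) ℂ) (y z : Cm 7) (Y Z : Cm 5 →ₗ[ℂ] Cm 7) : Prop :=
  ∀ (c a b : ℂ) v, Z v = c • Y v + a • y + b • z → Y v ⬝ᵥ B *ᵥ Y v = 0

/-- the form `θ = z · dy` is a contact form -/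
def Nd {n N : ℕ} (B : Matrix (Fin N) (Fin N) ℂ) (z : Cm N) (Y Z : Cm n →ₗ[ℂ] Cm N) : Prop :=
  ∀ (c : ℂ) v, z ⬝ᵥ B *ᵥ Y v = 0 →
    (∀ v', c * (z ⬝ᵥ B *ᵥ Y v') + (Z v ⬝ᵥ B *ᵥ Y v' - Z v' ⬝ᵥ B *ᵥ Y v) = 0) → c = 0 ∧ v = 0

/-- the geometric data -/
structure Geo {X K : Mf 5} {U : Mf 6} (p : U.X → K.X) (e : U.X → X.X) (M : Bd K.X)
    (s : Fin 7 → M.ι → K.X → ℂ) (B : Matrix (Fin 7) (Fin 7) ℂ) (ℓ : X.X → Submodule ℂ (Cm 7))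
    {ι : Type} (O : ι → Set X.X) (y z : ι → X.X → Cm 7) : Prop where
  sp : Sub 6 5 p
  se : Sub 6 5 e
  qd : Qd M s B
  ln : Ln p e M s ℓ
  fr : Fr B ℓ O y z

/-- quantification over the geometric data -/
def AllG (R : ∀ {X K : Mf 5} {U : Mf 6}, (U.X → K.X) → (U.X → X.X) → ∀ M : Bd K.X,
    (Fin 7 → M.ι → K.X → ℂ) → Matrix (Fin 7) (Fin 7) ℂ → (X.X → Submodule ℂ (Cm 7)) →
    (X.X → Cm 7) → (X.X → Cm 7) → X.X → Chart 5 X.X → Prop) : Prop :=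
  ∀ {X K : Mf 5} {U : Mf 6} (p : U.X → K.X) (e : U.X → X.X) (M : Bd K.X) s B ℓ (ι : Type)
    (O : ι → Set X.X) y z, Geo p e M s B ℓ O y z → ∀ i x χ', x ∈ O i → At χ' x →
    R p e M s B ℓ (y i) (z i) x χ'

/-- the differential of the tautological point -/
def Form {X K : Mf 5} {U : Mf 6} (p : U.X → K.X) (e : U.X → X.X) (M : Bd K.X)
    (s : Fin 7 → M.ι → K.X → ℂ) (y z : X.X → Cm 7) (x : X.X) (χ' : Chart 5 X.X) : Prop :=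
  ∀ u a (χ : Chart 6 U.X) (α β : ℂ), e u = x → p u ∈ M.U a → At χ u →
    (fun j => s j a (p u)) = α • y x + β • z x → ∀ w, ∃ c c' : ℂ,
      (fun j => dd (fun u => s j a (p u)) χ u w) = α • Dv y χ' x (df e χ χ' u w) +
        β • Dv z χ' x (df e χ χ' u w) + c • y x + c' • z x

/-- row FORM -/
def FORM : Prop := AllG fun p e M s _ _ y z x χ' => Form p e M s y z x χ'

/-- row PEN -/
def PEN : Prop := AllG fun p e M s B _ y z x χ' => Form p e M s y z x χ' →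
  Pen B (y x) (z x) (Dv y χ' x) (Dv z χ' x)

/-- row ARC: a curve of isotropic lines in a plane -/
def ARC : Prop := ∀ {N : ℕ} (B : Matrix (Fin N) (Fin N) ℂ) (P : Submodule ℂ (Cm N))
  (y : Cm 1 → Cm N) (z : Cm N) (τ v : Cm 1), Bᵀ = B → finrank ℂ P ≤ 3 → AnalyticAt ℂ y τ → z ∈ P →
  (∀ᶠ t in 𝓝 τ, y t ∈ P ∧ y t ⬝ᵥ B *ᵥ y t = 0) → y τ ⬝ᵥ B *ᵥ z = 0 → z ⬝ᵥ B *ᵥ z = 0 →
  (∀ a b : ℂ, a • y τ + b • z = 0 → a = 0 ∧ b = 0) →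
  fderiv ℂ y τ v ⬝ᵥ B *ᵥ fderiv ℂ y τ v = 0

/-- row ISO -/
def ISO : Prop := AllG fun p e M s B ℓ y z x χ' => Pl p e ℓ → Form p e M s y z x χ' →
  Pen B (y x) (z x) (Dv y χ' x) (Dv z χ' x) → Iso B (y x) (z x) (Dv y χ' x) (Dv z χ' x)

/-- row KRO: pencils of size three times four -/
def KRO : Prop := ∀ (D E : Type) [AddCommGroup D] [Module ℂ D] [AddCommGroup E] [Module ℂ E]
  (q : E →ₗ[ℂ] E →ₗ[ℂ] ℂ) (Y Z : D →ₗ[ℂ] E), finrank ℂ D = 4 → finrank ℂ E = 3 →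
  (∀ a b, q a b = q b a) → (∀ a, (∀ b, q a b = 0) → a = 0) → Function.Surjective Y →
  (∀ c : ℂ, Function.Surjective (Z - c • Y)) → (∀ (c : ℂ) v, Z v = c • Y v → q (Y v) (Y v) = 0) →
  ∀ v, (∀ v', q (Z v) (Y v') = q (Z v') (Y v)) → v = 0

/-- row LA -/
def LA : Prop := ∀ B y z Y Z, Pen B y z Y Z → Iso B y z Y Z → Nd B z Y Z

/-- `ξ` is the Hamiltonian vector of the function `y A z` -/
def Hm {n N : ℕ} (B A : Matrix (Fin N) (Fin N) ℂ) (y z : Cm N) (Y Z : Cm n →ₗ[ℂ] Cm N) (c : ℂ)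
    (ξ : Cm n) : Prop :=
  z ⬝ᵥ B *ᵥ Y ξ = y ⬝ᵥ A *ᵥ z ∧ ∀ v, c * (z ⬝ᵥ B *ᵥ Y v) + (Z ξ ⬝ᵥ B *ᵥ Y v - Z v ⬝ᵥ B *ᵥ Y ξ) +
    (Y v ⬝ᵥ A *ᵥ z + y ⬝ᵥ A *ᵥ Z v) = 0

/-- row HAL: the linear algebra of Hamiltonian vectors -/
def HAL : Prop := ∀ {n N : ℕ} (B : Matrix (Fin N) (Fin N) ℂ) (y z : Cm N) (Y Z : Cm n →ₗ[ℂ] Cm N),
  Dr B y z Y Z → (∀ v, ∃ A, Aᵀ = -A ∧ Hm B A y z Y Z 0 v) ∧
    (Nd B z Y Z → ∀ A, ∃ c ξ, Hm B A y z Y Z c ξ) ∧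
    ∀ (A : Matrix (Fin N) (Fin N) ℂ) (y' z' : Cm N) (Y' Z' : Cm n →ₗ[ℂ] Cm N) (a b a' b' c : ℂ) ξ,
      Aᵀ = -A → y' = a • y + b • z → z' = a' • y + b' • z →
      (∀ s t : ℂ, s • y' + t • z' = 0 → s = 0 ∧ t = 0) →
      (∀ v, ∃ s t : ℂ, Y' v = a • Y v + b • Z v + s • y + t • z) →
      (∀ v, ∃ s t : ℂ, Z' v = a' • Y v + b' • Z v + s • y + t • z) →
      Hm B A y z Y Z c ξ → ∃ c', Hm B A y' z' Y' Z' c' ξ

/-- row HAM: Hamiltonian vector fields -/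
def HAM : Prop := ∀ {n N : ℕ} (X : Mf n) (B : Matrix (Fin N) (Fin N) ℂ)
  (ℓ : X.X → Submodule ℂ (Cm N)) (ι : Type) (O : ι → Set X.X) (y z : ι → X.X → Cm N),
  Fr B ℓ O y z → (∀ i x χ, x ∈ O i → At χ x → Nd B (z i x) (Dv (y i) χ x) (Dv (z i) χ x)) →
  Gp.Gen n X.X

/-- **the output of the block** -/
def G51 : Prop := ∀ T : CT, Gm.HRR T → ∀ {N r d D k δ : ℕ} {V : Mf 5} {P : Eqs r N}
  {pt : Cm N → V.X} (F : Mp.Fam V P pt d D k) (E : VB F.U.X), Cv.Sit T δ F 1 E →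
  Out (Cv.nsF T F E) → Gp.Gen 5 V.X

theorem g51_of (num : NUM) (b2k : B2K) (bpf : BPF) (qb : QB) (line : LINE) (plane : PLANE)
    (frm : FRM) (form : FORM) (pen : PEN) (iso : ISO) (la : LA) (ham : HAM) : G51 := by
  intro T hR N r d D k δ V P pt F E h o
  obtain rfl : k = 5 := by have := h.dim; omega
  have hT := h.ok
  obtain ⟨η, κ, hh, kk, nm⟩ := num T hR F E h o
  obtain ⟨M, m1, m2, m3⟩ := bpf T hT hR _ _ _ _ _ _ nm (b2k T hT hR _ _ _ _ _ _ nm)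
  have := nm.cK
  obtain ⟨s, B, qd⟩ := qb T hT _ M κ ⟨inferInstance, m1, m2, m3 ▸ nm.kκ,
    hT.po.mono nm.kκ fun _ => le_top, by rw [m3, nm.canK]; push_cast; module,
    by rw [m3, ← pow_succ, nm.vol]; norm_num, by rw [m3, nm.vol]; norm_num⟩
  obtain ⟨ℓ, ln⟩ := line T hT hR _ _ _ _ _ _ nm M s qd.va m3
  have pl := plane T hT hR _ _ _ _ _ _ nm M s ℓ qd.va m3 ln
  obtain ⟨ι, O, y, z, fr⟩ := frm _ _ M s B ℓ nm.sp nm.se qd ln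
  have g : Geo F.p F.e M s B ℓ O y z := ⟨nm.sp, nm.se, qd, ln, fr⟩
  refine ham V B ℓ ι O y z fr fun i x χ hx hχ => ?_
  have f1 := form _ _ M s B ℓ ι O y z g i x χ hx hχ
  have f2 := pen _ _ M s B ℓ ι O y z g i x χ hx hχ f1
  exact la _ _ _ _ _ f2 (iso _ _ M s B ℓ ι O y z g i x χ hx hχ pl f1 f2)

end Vale.Agent.P280Z.G2
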