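import Vale.Agent.P280Z.G2.C51
import Vale.Agent.P280Z.Qs.S51
import Vale.Agent.P280Z.Gz.All

/-!
# P280Z, block G2: the case of dimension five and pseudoindex three is settled
-/

namespace Vale.Agent.P280Z.G2

theorem c51 : Cv.CS 5 1 := fun T t _ _ _ _ _ _ _ _ _ F E s _ _ =>
  g51 T t.hrr F E s (Qs.n51p s.ns (R1.xt T t F E s) (Gz.plane t s (by norm_num)))

end Vale.Agent.P280Z.G2
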