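import Vale.Agent.P280Z.G2.Defs

/-!
# P280Z, block G2, row B2K: the second Betti number of the space of lines
-/

open scoped Manifold ContDiff Topology Matrix
open Set Filter
open Vale.Agent.P272.K Vale.Agent.P285.H281.FD Vale.Agent.P281Z Vale.Agent.P280Z.Ma

noncomputable section

namespace Vale.Agent.P280Z.G2

theorem b2k_alg {A C : Type} [CommRing A] [Algebra ℝ A] [CommRing C] [Algebra ℝ C]
    (Q1 Q2 : A →ₐ[ℝ] C) (P : C →ₗ[ℝ] A) (γ : C) (h k : A) (pr : ∀ u x, P (u * Q1 x) = P u * x)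
    (hh : Q2 h = Q1 h) (rel : k * k = h * k - (1 / 3 : ℝ) • (h * h)) (f1 : P γ = 0)
    (fk : P (γ * Q2 k) = 0) (a b : ℝ) (j : ℕ) :
    P (γ * (Q1 (a • h + b • k) + Q2 (a • h + b • k)) ^ j) = 0 ∧
      P (γ * (Q1 (a • h + b • k) + Q2 (a • h + b • k)) ^ j * Q2 k) = 0 := by
  induction j with
  | zero => rw [pow_zero, mul_one]; exact ⟨f1, fk⟩
  | succ j ih =>
    rw [pow_succ, ← mul_assoc]
    generalize γ * _ ^ j = u at ih
    have e : ∀ v, P (v * (Q1 (a • h + b • k) + Q2 (a • h + b • k))) =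
        P v * (a • h + b • k) + (a • (P v * h) + b • P (v * Q2 k)) := fun v => by
      rw [mul_add, map_add, pr, map_add Q2, map_smul, map_smul, hh, mul_add v, mul_smul_comm,
        mul_smul_comm, map_add, map_smul, map_smul, pr]
    have e' : P (u * Q2 k * Q2 k) = 0 := by
      rw [mul_assoc, ← map_mul, rel, map_sub, map_smul, map_mul Q2, map_mul Q2, hh, mul_sub,
        mul_smul_comm, map_sub, map_smul, mul_comm (Q1 h) (Q2 k), ← mul_assoc, ← mul_assoc, pr, pr,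
        pr, ih.1, ih.2, zero_mul, zero_mul, smul_zero, sub_zero]
    rw [mul_right_comm, e, e, e', ih.1, ih.2]
    simp only [zero_mul, smul_zero, add_zero, and_self]

theorem b2k_of (hD : DIAG) : B2K := by
  intro T hT _ X K U p e η κ h k m a ha
  obtain ⟨W, q1, q2, dg, D, s, c, hc, h1, h2, cW, hδ⟩ :=
    hD T hT X U e m.se m.cU fun x => (m.ce x).isPreconnected
  obtain ⟨α, β, kU⟩ := m.kU
  have hU : U.Kah := (hT.po.kah U).2 ⟨_, kU⟩
  have g1 : ∀ b, T.pull hc.emb.hol (T.pull c.sf'.hol b) = b := fun b => by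
    rw [← hT.rg.pull_comp hc.emb.hol c.sf'.hol holM_id fun x => (h1 x).symm, hT.rg.pull_id]
  have g2 : ∀ b, T.pull hc.emb.hol (T.pull c.hg' b) = b := fun b => by
    rw [← hT.rg.pull_comp hc.emb.hol c.hg' holM_id fun x => (h2 x).symm, hT.rg.pull_id]
  have hh : T.pull c.hg' h = T.pull c.sf'.hol h := by
    rw [← m.eh, ← hT.rg.pull_comp c.hg' m.se.hol (m.se.hol.comp c.hg') fun _ => rfl,
      ← hT.rg.pull_comp c.sf'.hol m.se.hol (m.se.hol.comp c.hg') c.comm]
  have dg0 : ∀ b, T.push q1 (T.c1 W D * T.pull c.hg' b) = b := fun b => by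
    refine sub_eq_zero.1 (hT.ho.pd U hU _ fun b' => ?_)
    rw [sub_mul, map_sub, ← hT.pu.proj c.sf', hT.pu.int c.sf', mul_assoc, hT.pl hc, map_mul, g1, g2,
      sub_self]
  have bc : ∀ b, T.push q1 (T.pull c.hg' b) = T.pull m.se.hol (T.push e b) := fun b =>
    (hT.pu.bc c b).symm
  have pr := hT.pu.proj c.sf'
  obtain ⟨γ, hγ⟩ : ∃ γ, γ = T.c1 W D - T.pull c.sf'.hol k - T.pull c.hg' k + T.pull c.sf'.hol h :=
    ⟨_, rfl⟩
  have Φ : ∀ b, T.push q1 (γ * T.pull c.hg' b) = b - T.pull m.se.hol (T.push e b) * (k - h) -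
      T.pull m.se.hol (T.push e (k * b)) := fun b => by
    rw [hγ, add_mul, sub_mul, sub_mul, map_add, map_sub, map_sub, dg0, ← map_mul, bc,
      mul_comm (T.pull c.sf'.hol k), mul_comm (T.pull c.sf'.hol h), pr, pr, bc]
    ring
  have d1 : T.push e 1 = 0 := push_one hT m.se
  have dh : ∀ b, T.push e (b * h) = T.push e b * η := fun b => by rw [← m.eh, hT.pu.proj m.se]
  have f1 : T.push q1 γ = 0 := by
    have := Φ 1
    rwa [map_one, mul_one, mul_one, d1, m.de, map_zero, map_one, zero_mul, sub_zero,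
      sub_self] at this
  have fk : T.push q1 (γ * T.pull c.hg' k) = 0 := by
    have := dh 1
    rw [one_mul, d1, zero_mul] at this
    rw [Φ, m.rel, map_sub, map_smul, mul_comm h k, dh, dh, this, m.de, zero_mul, smul_zero,
      sub_zero, one_mul, map_one, m.eh]
    ring
  have key := b2k_alg _ _ _ γ h k pr hh m.rel f1 fk α β
  have kW : T.Kc W (T.pull c.sf'.hol (α • h + β • k) + T.pull c.hg' (α • h + β • k)) :=
    hT.po.mono (hT.po.add (hT.po.pull c.sf'.hol kU) (hT.po.pull c.hg' kU))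
      fun z v hv => c.imm z v hv.1 hv.2
  generalize T.pull c.sf'.hol (α • h + β • k) + T.pull c.hg' (α • h + β • k) = w at key kW
  have dk : T.Dg U 1 k := m.pk ▸ dg_pull hT _ (hT.po.deg m.kκ)
  have dh' : T.Dg U 1 h := m.eh ▸ dg_pull hT _ (hT.po.deg m.kη)
  have ty : ∀ {n} {V : Mf n} {x}, T.Kc V x → x ∈ T.Ty V := fun {_ V x} hx =>
    hT.tp.wp (mul_one x ▸ hT.po.wp_mul (hT.po.mono hx fun _ => le_top) (hT.po.wp_one V))
  have tk : k ∈ T.Ty U := m.pk ▸ hT.tp.pull _ (ty m.kκ)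
  have th : h ∈ T.Ty U := m.eh ▸ hT.tp.pull _ (ty m.kη)
  have dγ : T.Dg W 1 γ := by
    rw [CT.Dg, hγ, map_add, map_sub, map_sub, hT.c1.deg, dg_pull hT _ dk, dg_pull hT _ dk,
      dg_pull hT _ dh']
  have γ0 : γ = 0 := by
    by_contra hne
    have z1 : w ^ (5 + 1) * γ = 0 :=
      Ld.ConnX.top0 hT ((hT.po.kah W).2 ⟨_, kW⟩) cW
        (hT.rg.dg_mul W 6 1 _ _ (dg_pow hT (hT.po.deg kW) 6) dγ)
        (by rw [← hT.pu.int c.sf', mul_comm, (key _).1, map_zero])
    have z2 : T.pull hc.emb.hol γ = 0 := by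
      rw [hγ, map_add, map_sub, map_sub, g1, g1, g2, hδ, m.canX, m.canU, map_smul, m.eh]
      module
    have z3 := hT.ho.hr kW 1 5 rfl γ (hγ ▸ add_mem (sub_mem (sub_mem (hT.tp.c1 W D hc.lb)
      (hT.tp.pull _ tk)) (hT.tp.pull _ tk)) (hT.tp.pull _ th)) dγ z1 hne
    have z4 : γ * γ * w ^ 5 = T.c1 W D * (γ * w ^ 5) - γ * w ^ 5 * T.pull c.sf'.hol k -
        γ * w ^ 5 * T.pull c.hg' k + γ * w ^ 5 * T.pull c.sf'.hol h := by
      linear_combination (γ * w ^ 5) * hγ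
    rw [z4, map_add, map_sub, map_sub, hT.pl hc, map_mul, z2, zero_mul, ← hT.pu.int c.sf',
      ← hT.pu.int c.sf', ← hT.pu.int c.sf', pr, pr, (key 5).1, (key 5).2] at z3
    simp at z3
  have db := dg_pull hT m.sp.hol ha
  obtain ⟨c0, e0⟩ := hT.rg.h0 X m.cX.toPreconnectedSpace (T.push e (T.pull m.sp.hol a))
    (by rw [CT.Dg, hT.pu.deg m.se 1 rfl, zero_add, db])
  obtain ⟨c1, e1⟩ := m.b2 (T.push e (k * T.pull m.sp.hol a))
    (by rw [CT.Dg, hT.pu.deg m.se 1 rfl, hT.rg.dg_mul U 1 1 _ _ dk db])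
  have e2 := Φ (T.pull m.sp.hol a)
  rw [γ0, zero_mul, map_zero, e0, e1, AlgHom.commutes, ← Algebra.smul_def, map_smul, m.eh] at e2
  have e3 : T.pull m.sp.hol (a - c0 • κ) = (c1 - c0) • h := by
    rw [map_sub, map_smul, m.pk]
    linear_combination (norm := module) -e2
  have e4 := hT.pu.proj m.sp 1 (a - c0 • κ)
  have e5 := hT.pu.proj m.sp h (a - c0 • κ)
  rw [push_one hT m.sp, zero_mul, one_mul, e3, map_smul, m.dp] at e4
  have e6 := congrArg (fun x => T.int K (x * κ ^ 5)) e4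
  simp only [smul_mul_assoc, one_mul, map_smul, m.vol, zero_mul, map_zero, smul_eq_mul] at e6
  rw [e3, (mul_eq_zero.1 e6).resolve_right two_ne_zero, zero_smul, mul_zero, map_zero, m.dp,
    one_mul] at e5
  exact ⟨c0, sub_eq_zero.1 e5.symm⟩

end Vale.Agent.P280Z.G2
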