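import Vale.Agent.P280Z.G2.Defs

/-!
# P280Z, block G2: the fundamental line bundle of the space of lines (row BPF)
-/

open scoped Manifold ContDiff Topology
open Set Filter
open Vale.Agent.P272.K Vale.Agent.P285.H281.FD Vale.Agent.P281Z

noncomputable section

namespace Vale.Agent.P280Z.G2

namespace BpfH

theorem dem_eq {T : CT} (hT : T.OK) {m : ℕ} {U : Mf (m + 1)} {W : Mf m} {f : U.X → W.X}
    (hf : Sub (m + 1) m f) {a b : T.H U} (ha : T.push f a = 1) (x y : T.H W) (s t : ℝ)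
    (e : b = s • (a * T.pull hf.hol x) + t • T.pull hf.hol y) :
    T.dem hf.hol b = s • T.pull hf.hol x := by
  rw [e, map_add, map_smul, map_smul, Ma.dem_pull hT hf, smul_zero, add_zero]
  change s • T.pull hf.hol (T.push f _) = _
  rw [hT.pu.proj hf, ha, one_mul]

end BpfH

open BpfH in
/-- **row BPF** -/
theorem bpf : BPF := by
  intro T hT hR X K U p e η κ h k o hB
  have s : En.Fs T (X := K) (K := X) e p κ 5 :=
    ⟨o.se, o.sp, o.cK, o.cU, fun x => (o.ce x).2, o.kκ, by norm_num, o.canK,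
      fun L _ => hB _ (hT.c1.deg K L), by
        change T.pull _ (T.push e _) = 1
        rw [o.pk, o.de, map_one]⟩
  have r := o.rel
  simp only [Algebra.smul_def] at r
  have r3 : 3 * algebraMap ℝ (T.H U) (1 / 3) = 1 := by
    rw [← map_ofNat (algebraMap ℝ (T.H U)) 3, ← map_mul]
    norm_num
  have d1 : T.dem o.se.hol (k ^ 4) = (1 / 3 : ℝ) • h ^ 3 := by
    rw [dem_eq hT o.se o.de (η ^ 3) (η ^ 4) (1 / 3) (-(1 / 3 * (1 / 3) * 2)) (by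
      simp only [map_pow, o.eh, Algebra.smul_def, map_neg, map_mul, map_ofNat]
      generalize algebraMap ℝ (T.H U) (1 / 3) = c at r r3
      linear_combination (k ^ 2 + h * k + (1 - c) * h ^ 2) * r -
        (h ^ 3 * k - c * h ^ 4) * r3), map_pow, o.eh]
  have d2 : T.dem o.sp.hol (h ^ 3) = (6 : ℝ) • k ^ 2 := by
    rw [dem_eq hT o.sp o.dp (κ ^ 2) (κ ^ 3) 6 (-9) (by
      simp only [map_pow, o.pk, Algebra.smul_def, map_neg, map_ofNat]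
      generalize algebraMap ℝ (T.H U) (1 / 3) = c at r r3
      linear_combination (3 * h + 9 * k) * r - (h ^ 3 + 3 * h ^ 2 * k) * r3), map_pow, o.pk]
  have d3 : T.dem o.se.hol (k ^ 2) = (1 : ℝ) • h := by
    rw [dem_eq hT o.se o.de η (η ^ 2) 1 (-(1 / 3)) (by
      simp only [map_pow, o.eh, Algebra.smul_def, map_neg, map_one]
      linear_combination r), o.eh]
  have hW : ∀ l, ∃ (W : Mf 4) (g : W.X → K.X) (hg : HolM 4 5 g),
      T.int W (T.pull hg (κ ^ 4)) = T.int K (κ ^ 5) ∧ ∀ l', l' ∈ range g ↔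
        ∃ u₀ u₁ u₂ u₃, p u₀ = l ∧ e u₀ = e u₁ ∧ p u₁ = p u₂ ∧ e u₂ = e u₃ ∧ p u₃ = l' := fun l => by
    obtain ⟨⟨Γ, i, hi⟩, h0⟩ := Gm.fibi T hT (d := 1) p l rfl o.sp
    obtain ⟨W₂, j₂, h₂, a₂, b₂⟩ := En.crv hT o.se hi.hol
    obtain ⟨W₃, j₃, h₃, a₃, b₃⟩ := En.crv hT o.sp h₂
    obtain ⟨W₄, j₄, h₄, a₄, b₄⟩ := En.crv hT o.se h₃
    refine ⟨W₄, _, o.sp.hol.comp h₄, ?_, fun l' => ⟨?_, ?_⟩⟩
    · rw [hT.rg.pull_comp h₄ o.sp.hol _ fun _ => rfl, map_pow (T.pull o.sp.hol), o.pk, b₄, d1,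
        map_smul, map_smul, b₃, d2, map_smul, map_smul, b₂, d3, one_smul,
        h0 Γ i hi h 1 (o.dp.trans (map_one _).symm), o.vol]
      norm_num
    · rintro ⟨w₄, rfl⟩
      obtain ⟨w₃, k₃⟩ := (a₄ _).1 (mem_range_self w₄)
      obtain ⟨w₂, k₂⟩ := (a₃ _).1 (mem_range_self w₃)
      obtain ⟨z, k₁⟩ := (a₂ _).1 (mem_range_self w₂)
      exact ⟨_, _, _, _, hi.fib z, k₁, k₂, k₃, rfl⟩
    · rintro ⟨u₀, u₁, u₂, u₃, k₀, k₁, k₂, k₃, rfl⟩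
      obtain ⟨z, rfl⟩ := hi.ex (y := u₀) k₀
      obtain ⟨w₂, rfl⟩ := (a₂ u₁).2 ⟨z, k₁⟩
      obtain ⟨w₃, rfl⟩ := (a₃ u₂).2 ⟨w₂, k₂⟩
      obtain ⟨w₄, rfl⟩ := (a₄ u₃).2 ⟨w₃, k₃⟩
      exact ⟨w₄, rfl⟩
  refine s.fund (n := 4) hT hR fun y => ?_
  obtain ⟨W, g, hg, -, b⟩ := hW y
  have := o.cK
  obtain ⟨x, hx⟩ := (Gm.bad.2 W K g (Nat.lt_succ_self _) hg).nonempty
  obtain ⟨W', g', hg', b1, b2⟩ := hW x
  exact ⟨W', g', hg', b1, fun c => let ⟨u₀, u₁, u₂, u₃, k₀, k₁, k₂, k₃, k₄⟩ := (b2 y).1 c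
    hx ((b x).2 ⟨u₃, u₂, u₁, u₀, k₄, k₃.symm, k₂.symm, k₁.symm, k₀⟩)⟩

end Vale.Agent.P280Z.G2
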