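import Vale.Agent.P280Z.G2.Defs
import Vale.Agent.P280Z.En.Fld

/-!
# P280Z, block G2: rows CRM, DER, FORM
-/

open scoped Manifold ContDiff Topology Matrix
open Set Filter
open Vale.Agent.P272.K Vale.Agent.P285.H281.FD Vale.Agent.P281Z
open Vale.Agent.P277Z (Hol)
open Vale.Agent.P277Z.Slc (dd)
open ContinuousLinearMap (fst snd)

noncomputable section

namespace Vale.Agent.P280Z.G2

namespace CrmH
variable {n N : ℕ} {X : Mf n} {y z : X.X → Cm N} {x : X.X} {χ : Chart n X.X}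

theorem an (h : ∀ j, Hol n (fun x => y x j) x) (hχ : At χ x) :
    AnalyticAt ℂ (fun ζ => y (χ.symm ζ)) (χ x) := analyticAt_pi_iff.2 fun j => h j χ hχ

theorem dv (h : ∀ j, Hol n (fun x => y x j) x) (hχ : At χ x) (v : Cm n) :
    fderiv ℂ (fun ζ => y (χ.symm ζ)) (χ x) v = Dv y χ x v :=
  DFunLike.congr_fun (fderiv_pi fun j => (h j χ hχ).differentiableAt) v

theorem bil (B : Matrix (Fin N) (Fin N) ℂ) (hy : ∀ j, Hol n (fun x => y x j) x)
    (hz : ∀ j, Hol n (fun x => z x j) x) (hχ : At χ x) (h : ∀ᶠ w in 𝓝 x, y w ⬝ᵥ B *ᵥ z w = 0)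
    (v : Cm n) : y x ⬝ᵥ B *ᵥ Dv z χ x v + Dv y χ x v ⬝ᵥ B *ᵥ z x = 0 := by
  let b : Cm N →L[ℂ] Cm N →L[ℂ] ℂ := LinearMap.toContinuousLinearMap
    (LinearMap.toContinuousLinearMap.toLinearMap.comp (Matrix.toLinearMap₂' ℂ B))
  have hb : ∀ u w, b u w = u ⬝ᵥ B *ᵥ w := Matrix.toLinearMap₂'_apply' B
  have h1 := b.hasFDerivAt_of_bilinear (an hy hχ).differentiableAt.hasFDerivAt
    (an hz hχ).differentiableAt.hasFDerivAt
  have h2 := DFunLike.congr_fun (h1.unique ((hasFDerivAt_const 0 _).congr_of_eventuallyEq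
    ((at_ev hχ h).mono fun _ k => (hb _ _).trans k))) v
  rw [← hb, ← hb, ← dv hy hχ, ← dv hz hχ]
  rw [hχ.left_inv] at h2
  exact h2

theorem sym {B : Matrix (Fin N) (Fin N) ℂ} (hB : Bᵀ = B) (u w : Cm N) :
    u ⬝ᵥ B *ᵥ w = w ⬝ᵥ B *ᵥ u := by
  rw [Matrix.dotProduct_mulVec, ← Matrix.mulVec_transpose, hB, dotProduct_comm]

end CrmH

open CrmH

theorem crm : CRM := by
  intro n N X y z w x χ α β hχ hy hz hw hi h h0 v
  have hP : ∀ {y : X.X → Cm N} (l : ℂ × ℂ →L[ℂ] ℂ), (∀ j, Hol n (fun x => y x j) x) →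
      AnalyticAt ℂ (fun ζ => l.smulRight (y (χ.symm ζ))) (χ x) := fun l hy =>
    ((ContinuousLinearMap.smulRightL ℂ (ℂ × ℂ) (Cm N) l).analyticAt _).fun_comp (an hy hχ)
  have := Eventually.choice (r := fun ζ (u : ℂ × ℂ) =>
    w (χ.symm ζ) = u.1 • y (χ.symm ζ) + u.2 • z (χ.symm ζ))
    ((at_ev hχ h).mono fun _ ⟨a, b, k⟩ => ⟨(a, b), k⟩)
  obtain ⟨u, hu⟩ := this
  have h1 : AnalyticAt ℂ u (χ x) := En.Fld.an_sol ((hP (fst ℂ ℂ ℂ) hy).add (hP (snd ℂ ℂ ℂ) hz))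
    ((injective_iff_map_eq_zero _).2 fun a k => by
      have k1 : a.1 • y (χ.symm (χ x)) + a.2 • z (χ.symm (χ x)) = 0 := k
      rw [hχ.left_inv] at k1
      exact Prod.ext (hi _ _ k1).1 (hi _ _ k1).2) (an hw hχ) (hu.mono fun _ => Eq.symm)
  have h2 := hu.self_of_nhds
  rw [hχ.left_inv, h0] at h2
  obtain ⟨h3, h4⟩ := hi (α - (u (χ x)).1) (β - (u (χ x)).2) (by
    rw [sub_smul, sub_smul, sub_add_sub_comm, h2, sub_self])
  have d := h1.differentiableAt.hasFDerivAt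
  have h5 := DFunLike.congr_fun (((d.fst.fun_smul (an hy hχ).differentiableAt.hasFDerivAt).fun_add
    (d.snd.fun_smul (an hz hχ).differentiableAt.hasFDerivAt)).congr_of_eventuallyEq hu).fderiv v
  refine ⟨(fderiv ℂ u (χ x) v).1, (fderiv ℂ u (χ x) v).2, ?_⟩
  rw [← dv hw hχ, ← dv hy hχ, ← dv hz hχ, h5, sub_eq_zero.1 h3, sub_eq_zero.1 h4, hχ.left_inv]
  exact add_add_add_comm _ _ _ _ |>.trans (add_assoc _ _ _).symm

theorem der : DER := by
  intro n N X B l ι O y z fr i x χ hx hχ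
  have m1 : ∀ w ∈ O i, y i w ∈ l w := fun w hw => (fr.mem i w hw _).2 ⟨1, 0, by simp⟩
  have m2 : ∀ w ∈ O i, z i w ∈ l w := fun w hw => (fr.mem i w hw _).2 ⟨0, 1, by simp⟩
  have nb := (fr.opn i).eventually_mem hx
  have hy := fr.hy i x hx
  have hz := fr.hz i x hx
  refine ⟨fr.sym, fr.ind i x hx, fr.iso x _ (m1 x hx) _ (m1 x hx), fr.iso x _ (m1 x hx) _ (m2 x hx),
    fr.iso x _ (m2 x hx) _ (m2 x hx), fun v => ?_, fun v => ?_, fun v => ?_⟩
  · have k := bil B hy hy hχ (nb.mono fun w hw => fr.iso w _ (m1 w hw) _ (m1 w hw)) v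
    rwa [sym fr.sym (Dv _ _ _ _), add_self_eq_zero] at k
  · have k := bil B hz hz hχ (nb.mono fun w hw => fr.iso w _ (m2 w hw) _ (m2 w hw)) v
    rwa [sym fr.sym (Dv _ _ _ _), add_self_eq_zero] at k
  · have k := bil B hy hz hχ (nb.mono fun w hw => fr.iso w _ (m1 w hw) _ (m2 w hw)) v
    rwa [sym fr.sym (Dv _ _ _ _)] at k

theorem form : FORM := by
  rintro X K U p e M s B l ι O y z g i _ χ' hx hχ' u a χ α β rfl ha hχ h0 v
  have he := g.se.hol.at u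
  have k : ∀ {y : X.X → Cm 7}, (∀ j, Hol 5 (fun x => y x j) (e u)) →
      Dv (fun u => y (e u)) χ u v = Dv y χ' (e u) (df e χ χ' u v) := fun hy =>
    funext fun j => DFunLike.congr_fun (dd_comp (hy j) he hχ hχ') v
  rw [← k (g.fr.hy i _ hx), ← k (g.fr.hz i _ hx)]
  refine crm U (fun u => y i (e u)) (fun u => z i (e u)) (fun u j => s j a (p u)) u χ α β hχ
    (fun j => he.hol (g.fr.hy i _ hx j)) (fun j => he.hol (g.fr.hz i _ hx j))
    (fun j => g.sp.hol.hol (sec_hol (g.qd.va.sec j).1 ha)) (g.fr.ind i _ hx) ?_ h0 v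
  filter_upwards [he.cont.eventually_mem ((g.fr.opn i).mem_nhds hx),
    g.sp.hol.cont.continuousAt.eventually (lb_near g.qd.va.lb ha)] with w k1 k2
  exact (g.fr.mem i _ k1 _).1 (g.ln.mem w a k2)

end Vale.Agent.P280Z.G2
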