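import Vale.Agent.P280Z.G2.Defs

/-!
# P280Z, block G2: systems of degree one on a curve
-/

open scoped Manifold ContDiff Topology Matrix
open Set Filter
open Vale.Agent.P272.K Vale.Agent.P285.H281.FD Vale.Agent.P281Z
open Vale.Agent.P277Z.Slc (dd)
open Vale.Agent.P280Z.Ld (Va Γ Bs not_nz)

noncomputable section

namespace Vale.Agent.P280Z.G2

namespace CrvX

variable {n : ℕ} {Z : Mf n} {L : Bd Z.X}

theorem ex {ι : Type} {t : ι → L.ι → Z.X → ℂ} (hL : IsLB n L) (ht : ∀ j, t j ∈ Γ n L)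
    (hB : Bs L t = ∅) {z a} (ha : z ∈ L.U a) : ∃ j, t j a z ≠ 0 := by
  by_contra! k
  exact (hB ▸ (fun j => (not_nz hL (ht j).1 ha).2 (k j) : z ∈ Bs L t) : z ∈ (∅ : Set Z.X))

/-- a pencil on a bundle which is not trivial is onto -/
theorem onto {T : CT} (hT : T.OK) {s : Fin 2 → L.ι → Z.X → ℂ} (va : Va n L s) (h : T.c1 Z L ≠ 0)
    (v : Cm 2) : ∃ z a, ∃ c : ℂ, z ∈ L.U a ∧ v = c • fun l => s l a z := by
  have hm : v 1 • s 0 - v 0 • s 1 ∈ Γ n L :=
    sub_mem (Submodule.smul_mem _ _ (va.sec 0)) (Submodule.smul_mem _ _ (va.sec 1))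
  obtain ⟨z, hz⟩ := not_forall.1 fun k => h (hT.c1.triv Z L _ va.lb hm.1 k)
  obtain ⟨a, ha⟩ := va.lb.cover z
  have k : v 1 * s 0 a z = v 0 * s 1 a z := sub_eq_zero.1 ((not_nz va.lb hm.1 ha).1 hz)
  obtain h0 | h0 := Fin.exists_fin_two.1 (ex va.lb va.sec va.bpf ha)
  · exact ⟨z, a, v 0 / s 0 a z, ha, funext (Fin.forall_fin_two.2
      ⟨(div_mul_cancel₀ _ h0).symm, ((div_mul_eq_mul_div _ _ _).trans
        ((div_eq_iff h0).2 k.symm)).symm⟩)⟩
  · exact ⟨z, a, v 1 / s 1 a z, ha, funext (Fin.forall_fin_two.2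
      ⟨((div_mul_eq_mul_div _ _ _).trans ((div_eq_iff h0).2 k)).symm,
        (div_mul_cancel₀ _ h0).symm⟩)⟩

end CrvX

open CrvX

theorem two : TWO := by
  intro T hT Z L σ z z' hc hL hσ h1 hz k k' y hy
  have hf : {x | ∀ _ : Fin 1, ¬ NZ L σ x}.Finite :=
    (Gm.Bad.fin ((Gm.RtH.an_z hL hσ).thin fun e =>
      (e ▸ mem_univ y : y ∈ {x | ¬ NZ L σ x}) hy)).subset fun x hx => hx 0
  have h4 := hT.bez Z L (fun _ => σ) hL (fun _ => hσ) hf
  rw [pow_one, h1] at h4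
  exact absurd (Nat.cast_le_one.1 h4)
    (not_le.2 ((one_lt_ncard hf).2 ⟨z, fun _ => k, z', fun _ => k', hz⟩))

theorem crv : CRV := by
  intro T hT Z L N t hc hL ht hB hK hcan h1
  have h : En.MD (n := 0) T Z L ((2 : ℝ) • T.c1 Z L) 1 :=
    ⟨inferInstance, hL, fun x => (hL.cover x).elim fun a ha => (ex hL ht hB ha).elim fun j hj =>
      ⟨t j, (ht j).1, not_not.1 fun k => hj ((not_nz hL (ht j).1 ha).1 k)⟩, hK,
      hT.po.mono (hT.po.smul _ two_pos hK) fun _ => le_top, hcan.trans (by push_cast; module),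
      by rw [pow_zero, one_mul, map_smul, h1]; norm_num,
      (congrArg _ (pow_one _)).trans (h1.trans Nat.cast_one.symm)⟩
  obtain ⟨s, C, va, hC⟩ : ∃ (s : Fin 2 → L.ι → Z.X → ℂ) (C : Matrix (Fin N) (Fin 2) ℂ),
      Va 1 L s ∧ ∀ j a, t j a = fun z => ∑ l, C j l * s l a z := by
    obtain ⟨b⟩ := h.basis hT
    refine ⟨fun l => (b l).1, fun j l => b.repr ⟨_, ht j⟩ l, (h.emb hT b).2.1, fun j a => ?_⟩
    have := congrArg Subtype.val (b.sum_repr ⟨_, ht j⟩)
    rw [Submodule.coe_sum] at this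
    exact funext fun z => (congrFun (congrFun this a) z).symm.trans (by
      simp only [Finset.sum_apply]; rfl)
  have hv : ∀ a z, (fun j => t j a z) = C.mulVecLin fun l => s l a z := fun a z =>
    funext fun j => congrFun (hC j a) z
  have hd : ∀ z a (ψ : Chart 1 Z.X) v, z ∈ L.U a → At ψ z →
      (fun j => dd (t j a) ψ z v) = C.mulVecLin fun l => dd (s l a) ψ z v :=
    fun z a ψ v ha hψ => funext fun j => by
      rw [hC j a]
      exact B3.BtH.dd_lin (fun l => sec_hol (va.sec l).1 ha) hψ _ v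
  have on := onto hT va fun k => zero_ne_one ((map_zero _).symm.trans (k ▸ h1))
  have inj : Function.Injective C.mulVecLin := (injective_iff_map_eq_zero _).2 fun v k => by
    obtain ⟨z, a, c, ha, rfl⟩ := on v
    obtain ⟨j, hj⟩ := ex hL ht hB ha
    rw [map_smul, ← hv] at k
    rw [(mul_eq_zero.1 (congrFun k j)).resolve_right hj, zero_smul]
  refine ⟨C.mulVecLin.range, (LinearMap.finrank_range_of_inj inj).trans (by simp),
    fun z a _ => ⟨_, (hv a z).symm⟩, ?_, fun z a ψ v ha hψ => ⟨⟨_, (hd z a ψ v ha hψ).symm⟩,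
      fun c k => va.tan z a ψ v ha hψ fun i j => ?_⟩⟩
  · rintro _ ⟨v, rfl⟩
    obtain ⟨z, a, c, ha, rfl⟩ := on v
    exact ⟨z, a, c, ha, by rw [map_smul, hv]⟩
  · have e : ∀ l, dd (s l a) ψ z v = c * s l a z := congrFun (inj (a₂ := c • fun l => s l a z)
      (by rw [map_smul, ← hv, ← hd z a ψ v ha hψ]; exact funext k))
    rw [e, e]
    ring

end Vale.Agent.P280Z.G2
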