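import Vale.Agent.P280Z.G2.Defs
import Vale.Agent.P280Z.Sq.Api
import Vale.Agent.P280Z.Ma.Rel
import Vale.Agent.P280Z.Co.Vbl
import Vale.Agent.P277Z.Slc.Div

/-!
# P280Z, block G2: hypersurfaces and the fibre square (rows CUT, DIAG)
-/

open scoped Manifold ContDiff Topology Matrix
open Set Filter
open Vale.Agent.P272.K Vale.Agent.P285.H281.FD Vale.Agent.P281Z
open Vale.Agent.P277Z.Slc (LEq stDiv)

noncomputable section

namespace Vale.Agent.P280Z.G2

theorem cut : CUT := fun {n} V Z i S hi => by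
  obtain ⟨D, s, h⟩ := stDiv (n + 1) V.X S fun x => by
    by_cases hx : x ∈ S
    · obtain ⟨c, f, h1, h2, h3⟩ := hi.subM x hx
      obtain rfl : c = 1 := by omega
      exact ⟨f 0, h3.mono fun y k => (k.trans Fin.forall_fin_one).symm, fun e he =>
        ⟨h2.1 0 e he, fun _ => (h2.2 e he).ne_zero 0⟩⟩
    · exact ⟨fun _ => 1, (hi.closed.isOpen_compl.eventually_mem hx).mono fun y k =>
        iff_of_false one_ne_zero k, fun _ _ => ⟨analyticAt_const, fun k => absurd k one_ne_zero⟩⟩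
  have e : {x | ¬ NZ D s x} = S := ext fun x => by
    obtain ⟨a, ha⟩ := h.lb.cover x
    exact (not_congr ⟨fun k => k a ha, fun k b hb =>
      mt (h.leq b x hb).mem.1 (mt (h.leq a x ha).mem.2 k)⟩).trans
        (not_not.trans (h.leq a x ha).mem)
  exact ⟨D, s, rfl, h.lb, h.sec, e ▸ hi, fun z a ha e he =>
    ((h.leq a _ ha).2 e he).2 ((h.leq a _ ha).mem.2 (hi.mem z))⟩

theorem diag : DIAG := fun T hT {n} X U e se cU ce => by
  obtain ⟨W, q1, q2, h, -, -, hl⟩ := fp (n + 1 + 1) e e (by omega) se se.hol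
  obtain ⟨dg, d1, d2⟩ := hl U _ _ holM_id holM_id fun _ => rfl
  obtain ⟨D, s, hc⟩ := cut W U dg (range dg) ⟨d1, fun u v k => by rw [← (d2 u).1, k, (d2 v).1],
    fun u => .of_comp (h.sf'.hol.at _) (d1.at u)
      ((imm_id u).cng (.of_forall fun v => (d2 v).1.symm)), rfl⟩
  refine ⟨W, q1, q2, dg, D, s, h, hc, fun u => (d2 u).1, fun u => (d2 u).2,
    (Sq.conn_of h.sf' (fun u => Sq.cart_fib h u ⟨⟨u, rfl⟩, ce _⟩) cU).toPreconnectedSpace, ?_⟩
  have r := Ma.rel_of vbl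
  obtain ⟨E, hE⟩ := r.ex e 1 se rfl
  obtain ⟨E', hE'⟩ := r.ex q1 1 h.sf' rfl
  have k1 : ∀ a, T.pull hc.emb.hol (T.pull h.sf'.hol a) = a := fun a =>
    (hT.rg.pull_comp _ _ holM_id (fun u => (d2 u).1.symm) a).symm.trans (hT.rg.pull_id _ a)
  have k2 : ∀ a, T.pull hc.emb.hol (T.pull h.hg' a) = a := fun a =>
    (hT.rg.pull_comp _ _ holM_id (fun u => (d2 u).2.symm) a).symm.trans (hT.rg.pull_id _ a)
  have k3 := r.adj T hT hc 1
  have k4 := (r.ps T hT se.hol hE).2.2 1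
  rw [(r.ps T hT h.sf'.hol hE').2.2 1, r.bc T hT h hE hE' 1, map_add, k1, k2, pow_one] at k3
  rw [hT.ch.tan, hT.ch.tan, map_neg] at k4
  linear_combination -k3 - k4

end Vale.Agent.P280Z.G2
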