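import Vale.Agent.P280Z.G2.Defs

/-!
# P280Z, block G2: the row FRM
-/

open scoped Manifold ContDiff Topology Matrix
open Set Filter
open Vale.Agent.P272.K Vale.Agent.P285.H281.FD Vale.Agent.P281Z
open Vale.Agent.P277Z (Hol at_chart hol_const)
open Vale.Agent.P277Z.Slc (dd)
open Module (finrank)

noncomputable section

namespace Vale.Agent.P280Z.G2

namespace FrmH

variable {X K : Mf 5} {U : Mf 6} {p : U.X → K.X} {e : U.X → X.X} {M : Bd K.X}
  {s : Fin 7 → M.ι → K.X → ℂ} {B : Matrix (Fin 7) (Fin 7) ℂ} {ℓ : X.X → Submodule ℂ (Cm 7)}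

theorem iso1 (qd : Qd M s B) (ln : Ln p e M s ℓ) {x : X.X} {v : Cm 7} (hv : v ∈ ℓ x) :
    v ⬝ᵥ B *ᵥ v = 0 := by
  obtain ⟨u, a, c, -, ha, rfl⟩ := ln.onto x v hv
  have h := (qd.tan a (p u) _ ha (at_chart _) fun j => s j a (p u)).2
    ⟨1, 0, funext fun j => by rw [one_mul, map_zero, add_zero]⟩
  rw [Matrix.mulVec_smul, smul_dotProduct, dotProduct_smul, h, smul_zero, smul_zero]

theorem iso2 (qd : Qd M s B) (ln : Ln p e M s ℓ) {x : X.X} {v w : Cm 7} (hv : v ∈ ℓ x)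
    (hw : w ∈ ℓ x) : v ⬝ᵥ B *ᵥ w = 0 := by
  have h := iso1 qd ln ((ℓ x).add_mem hv hw)
  have h1 : w ⬝ᵥ B *ᵥ v = v ⬝ᵥ B *ᵥ w := by
    rw [Matrix.dotProduct_mulVec, ← Matrix.mulVec_transpose, qd.sym, dotProduct_comm]
  rw [Matrix.mulVec_add, add_dotProduct, dotProduct_add, dotProduct_add, iso1 qd ln hv,
    iso1 qd ln hw, h1, zero_add, add_zero, ← two_mul] at h
  exact (mul_eq_zero.1 h).resolve_left two_ne_zero

theorem ext1 (sp : Sub 6 5 p) (se : Sub 6 5 e) (qd : Qd M s B) (ln : Ln p e M s ℓ) {x : X.X}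
    {w : Cm 7} (hw : w ∈ ℓ x) : ∃ y : X.X → Cm 7, y x = w ∧
      ∀ᶠ x' in 𝓝 x, (∀ j, Hol 5 (fun x => y x j) x') ∧ y x' ∈ ℓ x' := by
  obtain ⟨u, a, c, rfl, ha, rfl⟩ := ln.onto x w hw
  obtain ⟨g, g1, g2, g3⟩ := (se.sbm u).sec (se.hol.at u)
  have g4 : ∀ᶠ x' in 𝓝 (e u), p (g x') ∈ M.U a :=
    ((sp.hol.at _).cmp g2).cont.eventually (lb_near qd.va.lb (by simpa only [g1] using ha))
  refine ⟨fun x' => c • fun j => s j a (p (g x')), by simp only [g1], ?_⟩
  filter_upwards [g2.near, g3, g4] with x' k1 k2 k3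
  refine ⟨fun j => (hol_const c x').mul
    (((sp.hol.at _).cmp k1).hol (sec_hol (qd.va.sec j).1 k3)), (ℓ x').smul_mem c ?_⟩
  have k4 := ln.mem (g x') a k3
  rwa [k2] at k4

theorem loc (sp : Sub 6 5 p) (se : Sub 6 5 e) (qd : Qd M s B) (ln : Ln p e M s ℓ) (x : X.X) :
    ∃ Y : Fin 2 → X.X → Cm 7, ∀ᶠ x' in 𝓝 x, (∀ i, (∀ j, Hol 5 (fun x => Y i x j) x') ∧
      Y i x' ∈ ℓ x') ∧ LinearIndependent ℂ fun i => Y i x' := by
  let b := Module.finBasisOfFinrankEq ℂ (ℓ x) (ln.dim x)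
  choose Y h1 h2 using fun i => ext1 sp se qd ln (b i).2
  have h3 : LinearIndependent ℂ fun i => Y i x := by
    simp only [h1]
    exact b.linearIndependent.map' (ℓ x).subtype (Submodule.ker_subtype _)
  have h4 : ContinuousAt (fun x' i => Y i x') x := continuousAt_pi.2 fun i =>
    continuousAt_pi.2 fun j => ((h2 i).self_of_nhds.1 j).cont
  exact ⟨Y, (eventually_all.2 h2).and
    (h4.eventually (isOpen_setOfPred_linearIndependent.mem_nhds h3))⟩

end FrmH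

open FrmH in
/-- **row FRM** -/
theorem frm : FRM := by
  intro X K U p e M s B ℓ sp se qd ln
  choose Y hY using loc sp se qd ln
  refine ⟨X.X, fun i => interior {x' | (∀ k, (∀ j, Hol 5 (fun x => Y i k x j) x') ∧
      Y i k x' ∈ ℓ x') ∧ LinearIndependent ℂ fun k => Y i k x'}, fun i => Y i 0, fun i => Y i 1,
    qd.sym, fun x v hv w hw => iso2 qd ln hv hw, fun _ => isOpen_interior,
    fun x => ⟨x, mem_interior_iff_mem_nhds.2 (hY x)⟩, fun i x hx => ((interior_subset hx).1 0).1,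
    fun i x hx => ((interior_subset hx).1 1).1, fun i x hx a b h => ?_, fun i x hx w => ?_⟩
  · have k := Fintype.linearIndependent_iff.1 (interior_subset hx).2 ![a, b]
      (by rw [Fin.sum_univ_two]; exact h)
    exact ⟨k 0, k 1⟩
  · obtain ⟨h1, h2⟩ := interior_subset hx
    have k : Submodule.span ℂ (range fun k => Y i k x) = ℓ x :=
      Submodule.eq_of_le_of_finrank_eq (Submodule.span_le.2 (range_subset_iff.2 fun k => (h1 k).2))
        (by rw [finrank_span_eq_card h2, ln.dim, Fintype.card_fin])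
    rw [← k, Submodule.mem_span_range_iff_exists_fun]
    simp only [Fin.sum_univ_two]
    exact ⟨fun ⟨c, hc⟩ => ⟨c 0, c 1, hc.symm⟩, fun ⟨a, b, hc⟩ => ⟨![a, b], hc.symm⟩⟩

end Vale.Agent.P280Z.G2
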