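import Vale.Agent.P280Z.G2.Defs

/-!
# P280Z, block G2, row HAL: the linear algebra of Hamiltonian vectors
-/

open scoped Matrix
open Vale.Agent.P272.K
open Matrix

noncomputable section

namespace Vale.Agent.P280Z.G2

namespace HalH

variable {N : ℕ} {A B : Matrix (Fin N) (Fin N) ℂ} {y z : Cm N}

theorem sy (h : Bᵀ = B) (u w : Cm N) : u ⬝ᵥ B *ᵥ w = w ⬝ᵥ B *ᵥ u := by
  rw [dotProduct_mulVec, ← mulVec_transpose, h, dotProduct_comm]

theorem an (h : Aᵀ = -A) (u w : Cm N) : u ⬝ᵥ A *ᵥ w = -(w ⬝ᵥ A *ᵥ u) := by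
  rw [dotProduct_mulVec, ← mulVec_transpose, h, dotProduct_comm, neg_mulVec, dotProduct_neg]

theorem dual (h : ∀ a b : ℂ, a • y + b • z = 0 → a = 0 ∧ b = 0) :
    ∃ l m : Cm N, y ⬝ᵥ l = 1 ∧ l ⬝ᵥ z = 0 ∧ y ⬝ᵥ m = 0 ∧ m ⬝ᵥ z = 1 := by
  obtain ⟨r, hr⟩ := ((LinearMap.toSpanSingleton ℂ _ y).coprod
    (LinearMap.toSpanSingleton ℂ _ z)).exists_leftInverse_of_injective
      (LinearMap.ker_eq_bot'.2 fun q k => Prod.ext (h _ _ k).1 (h _ _ k).2)
  obtain ⟨l, hl⟩ := (dotProductEquiv ℂ (Fin N)).surjective ((LinearMap.fst ℂ _ _).comp r)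
  obtain ⟨m, hm⟩ := (dotProductEquiv ℂ (Fin N)).surjective ((LinearMap.snd ℂ _ _).comp r)
  have a : r y = (1, 0) := by simpa using LinearMap.congr_fun hr (1, 0)
  have b : r z = (0, 1) := by simpa using LinearMap.congr_fun hr (0, 1)
  refine ⟨l, m, (dotProduct_comm _ _).trans ((LinearMap.congr_fun hl y).trans ?_),
    (LinearMap.congr_fun hl z).trans ?_,
    (dotProduct_comm _ _).trans ((LinearMap.congr_fun hm y).trans ?_),
    (LinearMap.congr_fun hm z).trans ?_⟩ <;> simp [a, b]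

theorem vm (p q u w : Cm N) : u ⬝ᵥ vecMulVec p q *ᵥ w = u ⬝ᵥ p * q ⬝ᵥ w := by
  rw [vecMulVec_mulVec, op_smul_eq_smul, dotProduct_smul, smul_eq_mul, mul_comm]

end HalH

open HalH in
/-- row HAL -/
theorem hal : HAL := by
  intro n N B y z Y Z h
  have s := sy h.sym
  refine ⟨fun v => ?_, fun hN A => ?_, fun A y' z' Y' Z' a b a' b' c ξ hA hy hz hi hY hZ k => ?_⟩
  · obtain ⟨l, m, h1, h2, h3, h4⟩ := dual h.ind
    refine ⟨vecMulVec l (B *ᵥ Y v) - vecMulVec (B *ᵥ Y v) l + (vecMulVec m (B *ᵥ Z v) -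
      vecMulVec (B *ᵥ Z v) m) - (z ⬝ᵥ B *ᵥ Y v) • (vecMulVec l m - vecMulVec m l), ?_, ?_,
      fun w => ?_⟩
    · simp only [transpose_sub, transpose_add, transpose_smul, transpose_vecMulVec]
      module
    all_goals
      simp only [sub_mulVec, add_mulVec, smul_mulVec, dotProduct_sub, dotProduct_add,
        dotProduct_smul, smul_eq_mul, vm, dotProduct_comm (B *ᵥ _), h1, h2, h3, h4, h.yY, h.zZ,
        eq_neg_of_add_eq_zero_left (h.mix v)]
    · ring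
    · rw [s (Z v)]
      ring
  · let q := toBilin' B
    let P : (ℂ × Cm n) →ₗ[ℂ] ℂ × Module.Dual ℂ (Cm n) := (((q z).comp Y).comp
      (LinearMap.snd ℂ _ _)).prod ((LinearMap.toSpanSingleton ℂ _ ((q z).comp Y)).coprod
        (q.compl₁₂ Z Y - (q.compl₁₂ Z Y).flip))
    have P1 : ∀ p, (P p).1 = z ⬝ᵥ B *ᵥ Y p.2 := fun p => toBilin'_apply' B z (Y p.2)
    have P2 : ∀ p w, (P p).2 w = p.1 * (z ⬝ᵥ B *ᵥ Y w) +
        (Z p.2 ⬝ᵥ B *ᵥ Y w - Z w ⬝ᵥ B *ᵥ Y p.2) := fun p w => by simp [P, q, toBilin'_apply']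
    obtain ⟨p, hp⟩ := (LinearMap.injective_iff_surjective_of_finrank_eq_finrank (f := P)
      (by simp)).1 ((injective_iff_map_eq_zero _).2 fun p k =>
        have := hN p.1 p.2 (by rw [← P1, k]; rfl) fun w => by rw [← P2, k]; rfl
        Prod.ext this.1 this.2)
      (y ⬝ᵥ A *ᵥ z, -((((toBilin' A).flip z).comp Y) + ((toBilin' A) y).comp Z))
    refine ⟨p.1, p.2, by rw [← P1, hp], fun w => ?_⟩
    rw [← P2, hp]
    simp [toBilin'_apply']
  · have g : a * b' - b * a' ≠ 0 := fun e => by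
      have k1 := hi b' (-b) (by
        rw [hy, hz]
        linear_combination (norm := module) e • y)
      have k2 := hi a' (-a) (by
        rw [hy, hz]
        linear_combination (norm := module) -e • z)
      exact one_ne_zero (hi 1 0 (by
        rw [hy, neg_eq_zero.1 k1.2, neg_eq_zero.1 k2.2]
        simp)).1
    have t := an hA
    have t0 : ∀ u, u ⬝ᵥ A *ᵥ u = 0 := fun u => by linear_combination t u u / 2
    obtain ⟨s1, t1, e1⟩ := hY ξ
    obtain ⟨s2, t2, e2⟩ := hZ ξ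
    obtain ⟨d, hd⟩ : ∃ d, d * (a * b' - b * a') = s1 * b' + a * t2 - t1 * a' - b * s2 :=
      ⟨_, div_mul_cancel₀ _ g⟩
    have m := fun v => eq_neg_of_add_eq_zero_left (h.mix v)
    refine ⟨c - d, ?_, fun v => ?_⟩
    · simp only [hy, hz, e1, mulVec_add, mulVec_smul, dotProduct_add, add_dotProduct,
        dotProduct_smul, smul_dotProduct, smul_eq_mul, s z y, t z y, t0, h.yy, h.yz, h.zz, h.yY,
        h.zZ, m, k.1]
      ring
    · obtain ⟨s3, t3, e3⟩ := hY v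
      obtain ⟨s4, t4, e4⟩ := hZ v
      have k2 := k.2 v
      simp only [hy, hz, e1, e2, e3, e4, mulVec_add, mulVec_smul, dotProduct_add, add_dotProduct,
        dotProduct_smul, smul_dotProduct, smul_eq_mul, s z y, s (Y _) y, s (Y _) z, s (Z _) y,
        s (Z _) z, s (Y _) (Z _), s (Y v) (Y ξ), s (Z v) (Z ξ), t z y, t (Y v) y, t z (Y v),
        t (Z v) y, t (Z v) z, t0, h.yy, h.yz, h.zz, h.yY, h.zZ, m, k.1] at k2 ⊢
      linear_combination (a * b' - b * a') * k2 - (z ⬝ᵥ B *ᵥ Y v) * hd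

end Vale.Agent.P280Z.G2
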