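import Vale.Agent.P280Z.G2.Defs
import Vale.Agent.P280Z.En.Fld

/-!
# P280Z, block G2: Hamiltonian vector fields
-/

open scoped Manifold ContDiff Topology Matrix
open Set Filter
open Vale.Agent.P272.K Vale.Agent.P285.H281.FD Vale.Agent.P281Z
open Vale.Agent.P277Z (Hol)
open Vale.Agent.P277Z.Slc (dd)

noncomputable section

namespace Vale.Agent.P280Z.G2

namespace Ham

section an

variable {W : Type} [NormedAddCommGroup W] [NormedSpace ℂ W] {w : W}

theorem an_clm {E F : Type} [NormedAddCommGroup E] [NormedSpace ℂ E] [NormedAddCommGroup F]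
    [NormedSpace ℂ F] [FiniteDimensional ℂ E] {P : W → E →L[ℂ] F}
    (h : ∀ v, AnalyticAt ℂ (fun y => P y v) w) : AnalyticAt ℂ P w := by
  let b := Module.finBasis ℂ E
  have k : P = fun y => ∑ i, ContinuousLinearMap.smulRightL ℂ E F
      (LinearMap.toContinuousLinearMap (b.coord i)) (P y (b i)) := by
    funext y
    ext v
    refine (congrArg (P y) (b.sum_repr v).symm).trans ?_
    rw [map_sum]
    simp
  rw [k]
  exact Finset.analyticAt_fun_sum _ fun i _ =>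
    (ContinuousLinearMap.analyticAt _ _).fun_comp (h (b i))

theorem an_dot {N : ℕ} (B : Matrix (Fin N) (Fin N) ℂ) {f g : W → Cm N} (hf : AnalyticAt ℂ f w)
    (hg : AnalyticAt ℂ g w) : AnalyticAt ℂ (fun y => f y ⬝ᵥ B *ᵥ g y) w := by
  simp only [dotProduct, Matrix.mulVec]
  exact Finset.analyticAt_fun_sum _ fun i _ => (analyticAt_pi_iff.1 hf i).mul
    (Finset.analyticAt_fun_sum _ fun j _ => analyticAt_const.mul (analyticAt_pi_iff.1 hg j))

end an

section la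

variable {n N : ℕ} {B A : Matrix (Fin N) (Fin N) ℂ} {y z : Cm N} {Y Z Y' Z' : Cm n →ₗ[ℂ] Cm N}
  {c c' : ℂ} {ξ ξ' : Cm n}

theorem uniq (nd : Nd B z Y Z) (h : Hm B A y z Y Z c ξ) (h' : Hm B A y z Y Z c' ξ') : ξ = ξ' := by
  refine sub_eq_zero.1 (nd (c - c') (ξ - ξ') ?_ fun v => ?_).2
  · rw [map_sub, Matrix.mulVec_sub, dotProduct_sub, h.1, h'.1, sub_self]
  · rw [map_sub, map_sub, Matrix.mulVec_sub, dotProduct_sub, sub_dotProduct]
    linear_combination h.2 v - h'.2 v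

theorem chg {T : Cm n → Cm n} (hT : Function.Surjective T) (hY : ∀ v, Y' (T v) = Y v)
    (hZ : ∀ v, Z' (T v) = Z v) (h : Hm B A y z Y Z c ξ) : Hm B A y z Y' Z' c (T ξ) := by
  refine ⟨by rw [hY, h.1], fun v => ?_⟩
  obtain ⟨v, rfl⟩ := hT v
  rw [hY, hY, hZ, hZ]
  exact h.2 v

variable (B z Y Z) in
/-- the linear system -/
def Pm : ℂ × Cm n →ₗ[ℂ] ℂ × Cm n where
  toFun u := (z ⬝ᵥ B *ᵥ Y u.2, fun k => u.1 * (z ⬝ᵥ B *ᵥ Y (Pi.single k 1)) +
    (Z u.2 ⬝ᵥ B *ᵥ Y (Pi.single k 1) - Z (Pi.single k 1) ⬝ᵥ B *ᵥ Y u.2))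
  map_add' u u' := by
    refine Prod.ext ?_ (funext fun k => ?_) <;>
      simp only [Prod.fst_add, Prod.snd_add, map_add, Matrix.mulVec_add, dotProduct_add,
        add_dotProduct, Pi.add_apply]
    ring
  map_smul' a u := by
    refine Prod.ext ?_ (funext fun k => ?_) <;>
      simp only [Prod.smul_fst, Prod.smul_snd, map_smul, Matrix.mulVec_smul, dotProduct_smul,
        smul_dotProduct, Pi.smul_apply, smul_eq_mul, RingHom.id_apply]
    ring

theorem Pm_inj (nd : Nd B z Y Z) : Function.Injective (Pm B z Y Z) := by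
  refine (injective_iff_map_eq_zero _).2 fun ⟨c, v⟩ k => ?_
  have k1 : z ⬝ᵥ B *ᵥ Y v = 0 := congrArg Prod.fst k
  have k2 : ∀ i, c * (z ⬝ᵥ B *ᵥ Y (Pi.single i 1)) +
      (Z v ⬝ᵥ B *ᵥ Y (Pi.single i 1) - Z (Pi.single i 1) ⬝ᵥ B *ᵥ Y v) = 0 :=
    congrFun (congrArg Prod.snd k)
  obtain ⟨rfl, rfl⟩ := nd c v k1 fun v' => by
    induction v' using Pi.single_induction with
    | zero => simp
    | add a b ha hb =>
      rw [map_add, map_add, Matrix.mulVec_add, dotProduct_add, dotProduct_add, add_dotProduct]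
      linear_combination ha + hb
    | single i a =>
      have k3 : (Pi.single i a : Cm n) = a • Pi.single i 1 := by
        rw [← Pi.single_smul, smul_eq_mul, mul_one]
      rw [k3, map_smul, map_smul, Matrix.mulVec_smul, dotProduct_smul, dotProduct_smul,
        smul_dotProduct]
      simp only [smul_eq_mul]
      linear_combination a * k2 i
  rfl

theorem Pm_eq (h : Hm B A y z Y Z c ξ) : Pm B z Y Z (c, ξ) = (y ⬝ᵥ A *ᵥ z,
    fun k => -(Y (Pi.single k 1) ⬝ᵥ A *ᵥ z + y ⬝ᵥ A *ᵥ Z (Pi.single k 1))) :=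
  Prod.ext h.1 (funext fun _ => eq_neg_of_add_eq_zero_left (h.2 _))

end la

variable {n N : ℕ} {X : Mf n} {y : X.X → Cm N} {x : X.X} {χ χ' : Chart n X.X}

theorem an_val (h : ∀ j, Hol n (fun x => y x j) x) (he : At χ x) :
    AnalyticAt ℂ (fun ζ => y (χ.symm ζ)) (χ x) := analyticAt_pi_iff.2 fun j => h j χ he

theorem an_Dv (h : ∀ j, Hol n (fun x => y x j) x) (he : At χ x) (v : Cm n) :
    AnalyticAt ℂ (fun ζ => Dv y χ (χ.symm ζ) v) (χ x) := by
  refine analyticAt_pi_iff.2 fun j => AnalyticAt.congr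
    (((ContinuousLinearMap.apply ℂ ℂ v).analyticAt _).fun_comp (h j χ he).fderiv) ?_
  filter_upwards [he.nhds_target] with ζ hz
  change _ = fderiv ℂ (fun z => y (χ.symm z) j) (χ (χ.symm ζ)) v
  rw [χ.right_inv hz]
  rfl

theorem jac_eq (he : At χ x) (he' : At χ' x) (v : Cm n) :
    jacM χ χ' x *ᵥ v = P277Z.Slc.tr χ' χ x v := by
  rw [← dfM_id he he', dfM_mulVec]
  rfl

theorem Dv_chart (h : ∀ j, Hol n (fun x => y x j) x) (he : At χ x) (he' : At χ' x) (v : Cm n) :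
    Dv y χ' x (P277Z.Slc.tr χ' χ x v) = Dv y χ x v :=
  funext fun j => (DFunLike.congr_fun (P277Z.Slc.dd_chart (h j) he' he) v).symm

theorem main (crm : CRM) (der : DER) (hal : HAL) : HAM := by
  intro n N X B ℓ ι O y z fr nd
  have fld : ∀ A : Matrix (Fin N) (Fin N) ℂ, Aᵀ = -A → ∃ ξ, Gp.IsField n ξ ∧ ∀ i x χ, x ∈ O i →
      At χ x → ∃ c, Hm B A (y i x) (z i x) (Dv (y i) χ x) (Dv (z i) χ x) c (ξ χ (χ x)) := by
    intro A hA
    let R (i : ι) (x : X.X) (χ : Chart n X.X) (v : Cm n) : Prop :=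
      ∃ c, Hm B A (y i x) (z i x) (Dv (y i) χ x) (Dv (z i) χ x) c v
    have frame : ∀ i j x χ v, x ∈ O i → x ∈ O j → At χ x → R i x χ v → R j x χ v := by
      intro i j x χ v hi hj he ⟨c, k⟩
      have m1 : ∀ x ∈ O i, x ∈ O j → ∃ a b : ℂ, y j x = a • y i x + b • z i x := fun x hi hj =>
        (fr.mem i x hi _).1 ((fr.mem j x hj _).2 ⟨1, 0, by rw [one_smul, zero_smul, add_zero]⟩)
      have m2 : ∀ x ∈ O i, x ∈ O j → ∃ a b : ℂ, z j x = a • y i x + b • z i x := fun x hi hj =>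
        (fr.mem i x hi _).1 ((fr.mem j x hj _).2 ⟨0, 1, by rw [one_smul, zero_smul, zero_add]⟩)
      have ev : ∀ᶠ x' in 𝓝 x, x' ∈ O i ∧ x' ∈ O j :=
        Eventually.and ((fr.opn i).mem_nhds hi) ((fr.opn j).mem_nhds hj)
      obtain ⟨a, b, h1⟩ := m1 x hi hj
      obtain ⟨a', b', h2⟩ := m2 x hi hj
      exact (hal B _ _ _ _ (der B ℓ O y z fr i x χ hi he)).2.2 A _ _ _ _ a b a' b' c v hA h1 h2
        (fr.ind j x hj)
        (crm X (y i) (z i) (y j) x χ a b he (fr.hy i x hi) (fr.hz i x hi) (fr.hy j x hj)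
          (fr.ind i x hi) (ev.mono fun x k => m1 x k.1 k.2) h1)
        (crm X (y i) (z i) (z j) x χ a' b' he (fr.hy i x hi) (fr.hz i x hi) (fr.hz j x hj)
          (fr.ind i x hi) (ev.mono fun x k => m2 x k.1 k.2) h2) k
    let ξ (χ : Chart n X.X) (ζ : Cm n) : Cm n :=
      Classical.epsilon fun v => ∀ i, χ.symm ζ ∈ O i → R i (χ.symm ζ) χ v
    have sp : ∀ i x (χ : Chart n X.X), x ∈ O i → At χ x → R i x χ (ξ χ (χ x)) :=
      fun i x χ hi he => by
        simp only [ξ, χ.left_inv he.2]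
        obtain ⟨c, v, k⟩ := (hal B _ _ _ _ (der B ℓ O y z fr i x χ hi he)).2.1 (nd i x χ hi he) A
        exact Classical.epsilon_spec (p := fun v => ∀ i, x ∈ O i → R i x χ v)
          ⟨v, fun j hj => frame i j x χ v hi hj he ⟨c, k⟩⟩ i hi
    refine ⟨ξ, ⟨fun χ x he => ?_, fun χ χ' x he he' => ?_⟩, sp⟩
    · obtain ⟨i, hi⟩ := fr.cov x
      have k : ∀ᶠ ζ in 𝓝 (χ x), ∃ c, Hm B A (y i (χ.symm ζ)) (z i (χ.symm ζ))
          (Dv (y i) χ (χ.symm ζ)) (Dv (z i) χ (χ.symm ζ)) c (ξ χ ζ) := by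
        filter_upwards [at_ev he (Eventually.and ((fr.opn i).mem_nhds hi) (at_near he)),
          he.nhds_target] with ζ k1 k2
        have := sp i _ χ k1.1 k1.2
        rwa [χ.right_inv k2] at this
      obtain ⟨c, hc⟩ := k.choice
      have a1 := an_val (fr.hy i x hi) he
      have a2 := an_val (fr.hz i x hi) he
      have a3 := an_Dv (fr.hy i x hi) he
      have a4 := an_Dv (fr.hz i x hi) he
      refine analyticAt_snd.fun_comp (En.Fld.an_sol (u := fun ζ => (c ζ, ξ χ ζ))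
        (P := fun ζ => LinearMap.toContinuousLinearMap
          (Pm B (z i (χ.symm ζ)) (Dv (y i) χ (χ.symm ζ)) (Dv (z i) χ (χ.symm ζ))))
        (an_clm fun u => ?_) ?_ ?_ (hc.mono fun ζ => Pm_eq))
      · exact (an_dot B a2 (a3 _)).prod (analyticAt_pi_iff.2 fun k =>
          (analyticAt_const.mul (an_dot B a2 (a3 _))).add
            ((an_dot B (a4 _) (a3 _)).sub (an_dot B (a4 _) (a3 _))))
      · simp only [χ.left_inv he.2]
        exact Pm_inj (nd i x χ hi he)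
      · exact (an_dot A a1 a2).prod (analyticAt_pi_iff.2 fun k =>
          ((an_dot A (a3 _) a2).add (an_dot A a1 (a4 _))).neg)
    · obtain ⟨i, hi⟩ := fr.cov x
      obtain ⟨c, k⟩ := sp i x χ hi he
      obtain ⟨c', k'⟩ := sp i x χ' hi he'
      rw [jac_eq he he']
      exact uniq (nd i x χ' hi he') k' (chg (T := P277Z.Slc.tr χ' χ x)
        (fun v => ⟨P277Z.Slc.tr χ χ' x v, DFunLike.congr_fun (P277Z.Slc.tr_comp he' he) v⟩)
        (Dv_chart (fr.hy i x hi) he he') (Dv_chart (fr.hz i x hi) he he') k)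
  intro χ x he v
  obtain ⟨i, hi⟩ := fr.cov x
  obtain ⟨A, hA, k⟩ := (hal B _ _ _ _ (der B ℓ O y z fr i x χ hi he)).1 v
  obtain ⟨ξ, h1, h2⟩ := fld A hA
  obtain ⟨c, k'⟩ := h2 i x χ hi he
  exact ⟨ξ, h1, uniq (nd i x χ hi he) k' k⟩

end Ham

theorem ham_of (crm : CRM) (der : DER) (hal : HAL) : HAM := Ham.main crm der hal

end Vale.Agent.P280Z.G2
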