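import Vale.Agent.P280Z.G2.Defs
import Vale.Agent.P281Z.Mf.Fib

/-!
# P280Z, block G2, row ISO: the kernels of the pencil are isotropic
-/

open scoped Topology Matrix
open Set Filter Module
open Vale.Agent.P272.K Vale.Agent.P285.H281.FD Vale.Agent.P281Z
open Vale.Agent.P277Z (Hol)
open Vale.Agent.P277Z.Slc (dd at_chartAt)

noncomputable section

namespace Vale.Agent.P280Z.G2

namespace IsoH

theorem one {B : Matrix (Fin 7) (Fin 7) ℂ} {y z : Cm 7} {Y Z : Cm 5 →ₗ[ℂ] Cm 7}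
    (h : Pen B y z Y Z) {α β a b a0 b0 : ℂ} (hβ : β ≠ 0) {v v0 : Cm 5} (h0 : v0 ≠ 0)
    (e0 : α • Y v0 + β • Z v0 + a0 • y + b0 • z = 0)
    (e : α • Y v + β • Z v + a • y + b • z = 0) : ∃ r : ℂ, v = r • v0 := by
  let Ψ : (Cm 5 × ℂ) × ℂ →ₗ[ℂ] Cm 7 := ((α • Y + β • Z).coprod
    (LinearMap.toSpanSingleton ℂ _ y)).coprod (LinearMap.toSpanSingleton ℂ _ z)
  let φ : Cm 7 →ₗ[ℂ] ℂ := dotProductBilin ℂ ℂ (α • y + β • z) ∘ₗ B.mulVecLin
  have h1 : LinearMap.ker φ ≤ LinearMap.range Ψ := fun w hw =>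
    let ⟨v, a, b, k⟩ := h.onto α β (.inr hβ) w hw
    ⟨((v, a), b), k.symm⟩
  have h2 := Submodule.finrank_mono h1
  have h3 := φ.finrank_range_add_finrank_ker
  have h4 := Ψ.finrank_range_add_finrank_ker
  have h5 := (LinearMap.range φ).finrank_le
  simp only [finrank_prod, finrank_self, finrank_fin_fun] at h3 h4 h5
  obtain ⟨g, hg⟩ := (finrank_le_one_iff (K := ℂ) (V := LinearMap.ker Ψ)).1 (by omega)
  obtain ⟨c0, k0⟩ := hg ⟨((v0, a0), b0), e0⟩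
  obtain ⟨c, k⟩ := hg ⟨((v, a), b), e⟩
  have j0 : c0 • g.1.1.1 = v0 := congrArg (·.1.1.1) k0
  have j : c • g.1.1.1 = v := congrArg (·.1.1.1) k
  have j1 : c0 ≠ 0 := fun e => h0 (by rw [← j0, e, zero_smul])
  exact ⟨c / c0, by rw [← j0, smul_smul, div_mul_cancel₀ c j1, j]⟩

end IsoH

theorem iso_of (hA : ARC) : ISO := by
  intro X K U p e M s B ℓ ι O y z g i x χ' hx hχ pl fo pe c a b v hv
  obtain ⟨u, a0, c0, rfl, hu, e0⟩ := g.ln.onto x _ ((g.fr.mem i x hx _).2 ⟨-c, 1, rfl⟩)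
  have hc : c0 ≠ 0 := fun k => one_ne_zero (pe.dr.ind _ _ (by rw [e0, k, zero_smul])).2
  obtain ⟨Γ, j, hj⟩ := fib_emb (n := 6) (p := 5) (d := 1) (y := p u) rfl g.sp.hol
    fun x _ => g.sp.sbm x
  obtain ⟨t, rfl⟩ : u ∈ range j := hj.rng.symm ▸ rfl
  have hψ := at_chartAt (n := 1) t
  have hκ := at_chartAt (n := 6) (j t)
  generalize chartAt (Cm 1) t = ψ at hψ
  generalize chartAt (Cm 6) (j t) = κ at hκ
  have h1 : ∀ k, dd (fun y => s k a0 (p y)) κ (j t) (df j ψ κ t 1) = 0 := fun k => by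
    have d1 := dd_comp (a := fun y => s k a0 (p y)) (g.sp.hol.hol fun e' he' =>
      ((g.qd.va.sec k).1.holo a0 e' _ he' hu).analyticAt) (hj.hol.at t) hψ hκ
    simp only [hj.fib] at d1
    refine (congrArg (· 1) d1).symm.trans ?_
    simp [dd]
  have h2 : df e κ χ' (j t) (df j ψ κ t 1) ≠ 0 := fun k => one_ne_zero (hj.imm t ψ κ hψ hκ
    ((g.ln.imm _ a0 κ χ' _ 0 hu hκ hχ k fun l => (h1 l).trans (zero_mul _).symm).trans
      (map_zero _).symm))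
  obtain ⟨c1, c2, h3⟩ := fo _ a0 κ (c0⁻¹ * -c) c0⁻¹ rfl hu hκ (by
    rw [← inv_smul_smul₀ hc fun k => s k a0 (p (j t)), ← e0, smul_add, smul_smul, one_smul])
    (df j ψ κ t 1)
  obtain ⟨r, rfl⟩ := IsoH.one pe (inv_ne_zero hc) h2 (h3.symm.trans (funext h1))
    (v := v) (a := -c0⁻¹ * a) (b := -c0⁻¹ * b) (by rw [hv]; module)
  obtain ⟨P, p1, p2⟩ := pl (p (j t))
  have hf := g.se.hol.comp hj.hol
  have an : ∀ k, AnalyticAt ℂ (fun τ => y i (e (j (ψ.symm τ))) k) (ψ t) := fun k =>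
    hf.hol (g.fr.hy i _ hx k) ψ hψ
  have h4 := hA B P (fun τ => y i (e (j (ψ.symm τ)))) (z i (e (j t))) (ψ t) 1 g.fr.sym p1
    (AnalyticAt.pi an) (p2 _ rfl ((g.fr.mem i _ hx _).2 ⟨0, 1, by simp⟩))
    (at_ev hψ (P := fun τ => y i (e (j τ)) ∈ P ∧ y i (e (j τ)) ⬝ᵥ B *ᵥ y i (e (j τ)) = 0)
      ((hf.cont.continuousAt.eventually ((g.fr.opn i).mem_nhds hx)).mono fun τ k =>
        have l : y i (e (j τ)) ∈ ℓ (e (j τ)) := (g.fr.mem i _ k _).2 ⟨1, 0, by simp⟩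
        ⟨p2 _ (hj.fib τ) l, g.fr.iso _ _ l _ l⟩))
    (by simpa only [ψ.left_inv hψ.2] using pe.dr.yz) pe.dr.zz
    (by simpa only [ψ.left_inv hψ.2] using pe.dr.ind)
  have h5 : fderiv ℂ (fun τ => y i (e (j (ψ.symm τ)))) (ψ t) 1 =
      Dv (y i) χ' (e (j t)) (df e κ χ' (j t) (df j ψ κ t 1)) := funext fun k => by
    have d1 := dd_comp (f := fun τ => e (j τ)) (g.fr.hy i _ hx k) (hf.at t) hψ hχ
    rw [df_comp (g.se.hol.at _) (hj.hol.at t) hψ hκ hχ] at d1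
    rw [fderiv_pi fun k => (an k).differentiableAt]
    exact congrArg (· 1) d1
  rw [h5] at h4
  rw [map_smul, Matrix.mulVec_smul, dotProduct_smul, smul_dotProduct, h4, smul_zero, smul_zero]

end Vale.Agent.P280Z.G2
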