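import Vale.Agent.P280Z.G2.Defs
import Vale.Agent.P280Z.En.Wr
import Vale.Agent.P281Z.Mf.Adj

/-!
# P280Z, block G2, row JAC: Wronskians along the fibres
-/

open scoped Manifold ContDiff Topology Matrix
open Set Filter Matrix
open Vale.Agent.P272.K Vale.Agent.P285.H281.FD Vale.Agent.P281Z
open Vale.Agent.P277Z (Hol at_chart)
open Vale.Agent.P277Z.Slc (dd dd_congr lin isLB_can)
open Vale.Agent.P277.HD (pull)

noncomputable section

namespace Vale.Agent.P280Z.G2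

namespace JacH

section alg

variable {n : ℕ} (σ : Fin n ⊕ Fin 1 ≃ Fin (n + 1)) (A : Matrix (Fin n) (Fin (n + 1)) ℂ)

theorem ex_w : ∃ w : Cm (n + 1), ∀ ρ : Cm (n + 1), detR σ A (of fun _ => ρ) = ρ ⬝ᵥ w := by
  refine ⟨((fromRows A 0).submatrix σ.symm id)ᵀ.adjugate (σ (.inr 0)), fun ρ => ?_⟩
  have h : (fromRows A (of fun _ : Fin 1 => ρ)).submatrix σ.symm id =
      ((fromRows A 0).submatrix σ.symm id).updateRow (σ (.inr 0)) ρ := by
    ext a b
    obtain ⟨a | a, rfl⟩ := σ.surjective a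
    · rw [updateRow_ne (σ.injective.ne Sum.inl_ne_inr)]
      simp
    · rw [Subsingleton.elim a 0, updateRow_self]
      simp
  rw [detR, h, ← cramer_transpose_apply, cramer_eq_adjugate_mulVec, dotProduct_comm]
  rfl

variable {σ A} {w : Cm (n + 1)}

theorem w_ker (h : ∀ ρ : Cm (n + 1), detR σ A (of fun _ => ρ) = ρ ⬝ᵥ w) : A *ᵥ w = 0 :=
  funext fun a => (h (A a)).symm.trans (det_zero_of_row_eq
    (σ.injective.ne (Sum.inl_ne_inr (a := a) (b := 0))) (funext fun b => by simp))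

theorem w_ne (h : ∀ ρ : Cm (n + 1), detR σ A (of fun _ => ρ) = ρ ⬝ᵥ w)
    {N : Matrix (Fin (n + 1)) (Fin n) ℂ} (hN : A * N = 1) : w ≠ 0 := by
  rintro rfl
  obtain ⟨v, v0, hv⟩ := exists_mulVec_eq_zero_iff.2 ((h 0).trans (dotProduct_zero _))
  refine v0 (funext fun c => ?_)
  have k := detR_mul_detC σ hN (B := of fun c _ => v c) (by
    ext a b
    simpa [mulVec, dotProduct, mul_apply] using congrFun hv (σ (.inl a)))
    (of fun _ => Pi.single c 1)
  rw [h, dotProduct_zero, zero_mul, det_unique] at k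
  simpa [mul_apply, Pi.single_apply] using k.symm

theorem detR_smul (c : ℂ) (ρ : Cm (n + 1)) :
    detR σ A (of fun _ => c • ρ) = c * detR σ A (of fun _ => ρ) := by
  obtain ⟨w, h⟩ := ex_w σ A
  rw [h, h, smul_dotProduct, smul_eq_mul]

theorem clm_dot {m : ℕ} (φ : Cm m →L[ℂ] ℂ) (w : Cm m) : ∑ c, φ (Pi.single c 1) * w c = φ w := by
  conv_rhs => rw [pi_eq_sum_univ' w, map_sum]
  exact Finset.sum_congr rfl fun l _ => by rw [map_smul, smul_eq_mul, mul_comm]

end alg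

variable {n : ℕ} {X : Type} [TopologicalSpace X]

/-- the coefficients of the form `a db - b da` -/
def row (a b : X → ℂ) (χ : Chart n X) (x : X) : Cm n :=
  fun c => a x * dd b χ x (Pi.single c 1) - b x * dd a χ x (Pi.single c 1)

theorem row_dot (a b : X → ℂ) (χ : Chart n X) (x : X) (w : Cm n) :
    row a b χ x ⬝ᵥ w = a x * dd b χ x w - b x * dd a χ x w := by
  rw [← clm_dot (dd b χ x), ← clm_dot (dd a χ x), Finset.mul_sum, Finset.mul_sum,
    ← Finset.sum_sub_distrib]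
  exact Finset.sum_congr rfl fun c _ => by rw [row]; ring

variable [ChartedSpace (Cm n) X] [IsManifold 𝓘(ℂ, Cm n) ω X]

theorem row_chg {L : Bd X} {s t : L.ι → X → ℂ} (hL : IsLB n L) (hs : IsSec n L s)
    (ht : IsSec n L t) {a b : L.ι} {x : X} {χ χ' : Chart n X} (ha : x ∈ L.U a) (hb : x ∈ L.U b)
    (he : At χ x) (he' : At χ' x) : (of fun _ : Fin 1 => row (s a) (t a) χ x) =
      (of fun _ => L.g a b x ^ 2 • row (s b) (t b) χ' x) * jacM χ χ' x := by
  have h : ∀ {s : L.ι → X → ℂ}, IsSec n L s → ∀ k, dd (s a) χ x (Pi.single k 1) =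
      L.g a b x * ∑ l, dd (s b) χ' x (Pi.single l 1) * jacM χ χ' x l k +
        s b x * dd (L.g a b) χ x (Pi.single k 1) := fun {s} hs k => by
    have h : dd (s a) χ x = dd (fun y => L.g a b y * s b y) χ x := dd_congr (by
      filter_upwards [lb_near hL ha, lb_near hL hb] with y k1 k2 using hs.change a b y k1 k2) he
    rw [h, En.Wr.dd_mul' (lb_hol hL ha hb) (sec_hol hs hb) he,
      En.Wr.dd_chg (sec_hol hs hb) he he']
  ext i k
  simp only [mul_apply, of_apply, row, Pi.smul_apply, smul_eq_mul, mul_sub, sub_mul, mul_assoc,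
    Finset.sum_sub_distrib, ← Finset.mul_sum]
  rw [h hs, h ht, hs.change a b x ha hb, ht.change a b x ha hb]
  ring

theorem det_chg {X Y : Type} [TopologicalSpace X] [ChartedSpace (Cm (n + 1)) X]
    [IsManifold 𝓘(ℂ, Cm (n + 1)) ω X] [TopologicalSpace Y] [ChartedSpace (Cm n) Y]
    [IsManifold 𝓘(ℂ, Cm n) ω Y] (σ : Fin n ⊕ Fin 1 ≃ Fin (n + 1)) {f : X → Y} {x : X}
    (hf : HolA (n + 1) n f x) {L : Bd X} {s t : L.ι → X → ℂ} (hL : IsLB (n + 1) L)
    (hs : IsSec (n + 1) L s) (ht : IsSec (n + 1) L t) {a b : L.ι} {χ χ' : Chart (n + 1) X}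
    {ψ ψ' : Chart n Y} (ha : x ∈ L.U a) (hb : x ∈ L.U b) (he : At χ x) (he' : At χ' x)
    (hp : At ψ (f x)) (hp' : At ψ' (f x)) :
    detR σ (dfM f χ ψ x) (of fun _ => row (s a) (t a) χ x) =
      L.g a b x ^ 2 * (jacM χ χ' x).det * (∏ _u : Unit, (jacM ψ ψ' (f x)).det ^ (-1 : ℤ)) *
        detR σ (dfM f χ' ψ' x) (of fun _ => row (s b) (t b) χ' x) := by
  have k1 : (jacM ψ ψ' (f x)).det ≠ 0 := (isLB_can (n := n) (W := Y)).ne_zero _ _ _ hp hp'
  rw [Fintype.prod_unique, _root_.zpow_neg_one, dfM_chg hf he' he hp,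
    row_chg hL hs ht ha hb he he', detR_mul, detR_smul, dfM_chg' hf he' hp hp', detR_left,
    mul_assoc _ _⁻¹, inv_mul_cancel_left₀ k1, mul_right_comm]

end JacH

open JacH

theorem jac : JAC := by
  intro n X U e se L N t hL ht
  have σ : Fin n ⊕ Fin 1 ≃ Fin (n + 1) := sig rfl
  have hK : ∀ _ : Unit, IsLB (n + 1) (pull e (Bd.can n X.X)) := fun _ => se.hol.lb isLB_can
  have h1 := lb_mul (lb_pow hL 2) (isLB_can (n := n + 1) (W := U.X))
  refine ⟨((L.pow 2).mul (Bd.can (n + 1) U.X)).mul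
    (lin (fun _ : Unit => pull e (Bd.can n X.X)) fun _ => -1), fun i j r u =>
    detR σ (dfM e r.1.2 (r.2 ()) u) (of fun _ => row (t i r.1.1) (t j r.1.1) r.1.2 u),
    lb_mul h1 (lb_lin hK _), fun i j => isSec_of (fun r u hr => hol_det fun b c => ?_)
      fun a b u ha hb => ?_, fun T hT => ?_, fun u => ?_⟩
  · simp only [submatrix_apply, id]
    rcases σ.symm b with b | b
    · exact hol_dfM (se.hol.at _) hr.1.2 (hr.2 ()) b c
    · exact ((sec_hol (ht i) hr.1.1).mul (En.Wr.hol_dd (sec_hol (ht j) hr.1.1) hr.1.2 _)).sub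
        ((sec_hol (ht j) hr.1.1).mul (En.Wr.hol_dd (sec_hol (ht i) hr.1.1) hr.1.2 _))
  · exact det_chg σ (se.hol.at _) hL (ht i) (ht j) ha.1.1 hb.1.1 ha.1.2 hb.1.2 (ha.2 ()) (hb.2 ())
  · rw [hT.c1.mul U _ _ h1 (lb_lin hK _), hT.c1.mul U _ _ (lb_pow hL 2) isLB_can,
      hT.c1.pow U _ _ hL, hT.c1.lin U _ _ hK, Fintype.sum_unique, hT.c1.pull se.hol _ isLB_can]
    push_cast
    module
  · obtain ⟨a, ha⟩ := hL.cover u
    have c1 := at_chart (n := n + 1) u
    have c2 := at_chart (n := n) (e u)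
    obtain ⟨w, hw⟩ := ex_w σ (dfM e (chartAt _ u) (chartAt (Cm n) (e u)) u)
    exact ⟨((a, chartAt _ u), fun _ => chartAt (Cm n) (e u)), a, _, _, w, ⟨⟨ha, c1⟩, fun _ => c2⟩,
      ha, c1, c2, w_ne hw ((se.sbm u).rinv c1 c2), (dfM_mulVec w).symm.trans (w_ker hw),
      fun i j => (hw _).trans (row_dot _ _ _ _ _)⟩

end Vale.Agent.P280Z.G2
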