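import Mathlib.LinearAlgebra.Eigenspace.Triangularizable
import Mathlib.LinearAlgebra.Charpoly.Basic
import Mathlib.LinearAlgebra.Charpoly.ToMatrix
import Mathlib.Analysis.Complex.Polynomial.Basic

/-!
# P280Z, block G2: pencils of size three times four
-/

open Module (finrank)

noncomputable section

namespace Vale.Agent.P280Z.G2.KroH

variable {D E : Type} [AddCommGroup D] [Module ℂ D] [AddCommGroup E] [Module ℂ E]

theorem top [FiniteDimensional ℂ E] {Φ : E →ₗ[ℂ] E} {W : Submodule ℂ E} (hW : W ≤ W.comap Φ)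
    (h : ∀ (c : ℂ) n, ∃ m, n - (Φ m - c • m) ∈ W) : W = ⊤ := by
  by_contra k
  have := Submodule.Quotient.nontrivial_iff.2 k
  obtain ⟨c, hc⟩ := Module.End.exists_eigenvalue (W.mapQ W Φ hW)
  obtain ⟨v, hv⟩ := hc.exists_hasEigenvector
  have s : Function.Surjective (W.mapQ W Φ hW - c • LinearMap.id : (E ⧸ W) →ₗ[ℂ] E ⧸ W) :=
    fun n => by
      obtain ⟨n, rfl⟩ := W.mkQ_surjective n
      obtain ⟨m, hm⟩ := h c n
      exact ⟨W.mkQ m, ((Submodule.Quotient.eq W).2 hm).symm⟩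
  exact hv.2 ((injective_iff_map_eq_zero _).1 (LinearMap.injective_iff_surjective.2 s) v
    (sub_eq_zero.2 hv.apply_eq_smul))

theorem cube (hE : finrank ℂ E = 3) (Φ : E →ₗ[ℂ] E) (f : E) :
    ∃ a b c : ℂ, Φ (Φ (Φ f)) = a • f + b • Φ f + c • Φ (Φ f) := by
  have : FiniteDimensional ℂ E := .of_finrank_pos (by omega)
  have h := Φ.aeval_self_charpoly
  have d : Φ.charpoly.natDegree = 3 := Φ.charpoly_natDegree.trans hE
  have m : Φ.charpoly.coeff 3 = 1 := d ▸ Φ.charpoly_monic.coeff_natDegree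
  rw [Polynomial.aeval_eq_sum_range, d] at h
  have k := LinearMap.congr_fun h f
  simp only [Finset.sum_range_succ, Finset.sum_range_zero, m, pow_succ, pow_zero, one_smul,
    LinearMap.add_apply, LinearMap.smul_apply, Module.End.mul_apply, Module.End.one_apply,
    LinearMap.zero_apply, zero_add] at k
  exact ⟨-Φ.charpoly.coeff 0, -Φ.charpoly.coeff 1, -Φ.charpoly.coeff 2, by
    linear_combination (norm := module) k⟩

/-- the normal form of the pencil -/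
theorem chain {Y Z : D →ₗ[ℂ] E} (hD : finrank ℂ D = 4) (hE : finrank ℂ E = 3)
    (hY : Function.Surjective Y) (h : ∀ c : ℂ, Function.Surjective (Z - c • Y)) :
    ∃ e₀ e₁ e₂ e₃ : D, Y e₀ = 0 ∧ Z e₀ = Y e₁ ∧ Z e₁ = Y e₂ ∧ Z e₂ = Y e₃ ∧ Z e₃ = 0 ∧
      Y e₁ ≠ 0 ∧ (∀ n, ∃ a b c : ℂ, n = a • Y e₁ + b • Y e₂ + c • Y e₃) ∧
      ∀ v, ∃ t a b c : ℂ, v = t • e₀ + a • e₁ + b • e₂ + c • e₃ := by
  have : FiniteDimensional ℂ E := .of_finrank_pos (by omega)
  have : FiniteDimensional ℂ D := .of_finrank_pos (by omega)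
  have k1 := Y.finrank_range_add_finrank_ker
  rw [LinearMap.range_eq_top.2 hY, finrank_top, hD, hE] at k1
  obtain ⟨e, -, he⟩ := finrank_eq_one_iff'.1 (show finrank ℂ Y.ker = 1 by omega)
  obtain ⟨R, hR⟩ := Y.exists_rightInverse_of_surjective (LinearMap.range_eq_top.2 hY)
  have r : ∀ n, Y (R n) = n := LinearMap.congr_fun hR
  have y0 : Y e = 0 := e.2
  have dec : ∀ v, ∃ t : ℂ, v = t • (e : D) + R (Y v) := fun v => by
    obtain ⟨t, ht⟩ := he ⟨v - R (Y v), by rw [LinearMap.mem_ker, map_sub, r, sub_self]⟩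
    exact ⟨t, sub_eq_iff_eq_add.1 (congrArg Subtype.val ht).symm⟩
  obtain ⟨Φ, hΦ⟩ : ∃ Φ : E →ₗ[ℂ] E, ∀ n, Z (R n) = Φ n := ⟨Z.comp R, fun _ => rfl⟩
  obtain ⟨f, hf⟩ : ∃ f, Z e = f := ⟨_, rfl⟩
  obtain ⟨c₀, c₁, c₂, hc⟩ := cube hE Φ f
  have sp : ∀ n, ∃ a b c : ℂ, n = a • f + b • Φ f + c • Φ (Φ f) := fun n => by
    let W : Submodule ℂ E :=
      { carrier := {n | ∃ a b c : ℂ, n = a • f + b • Φ f + c • Φ (Φ f)}
        add_mem' := by
          rintro _ _ ⟨a, b, c, rfl⟩ ⟨a', b', c', rfl⟩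
          exact ⟨a + a', b + b', c + c', by module⟩
        zero_mem' := ⟨0, 0, 0, by module⟩
        smul_mem' := by
          rintro t _ ⟨a, b, c, rfl⟩
          exact ⟨t * a, t * b, t * c, by module⟩ }
    refine (top (Φ := Φ) (W := W) ?_ fun c n => ?_).ge (Submodule.mem_top (x := n))
    · rintro _ ⟨a, b, c, rfl⟩
      exact ⟨c * c₀, a + c * c₁, b + c * c₂, by
        simp only [map_add, map_smul, hc]
        module⟩
    · obtain ⟨v, rfl⟩ := h c n
      obtain ⟨t, ht⟩ := dec v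
      refine ⟨Y v, t, 0, 0, ?_⟩
      have := congrArg Z ht
      rw [map_add, map_smul, hf, hΦ] at this
      rw [LinearMap.sub_apply, LinearMap.smul_apply, this]
      module
  have sp' : ∀ n, ∃ a b c : ℂ,
      n = a • f + b • (Φ f - c₂ • f) + c • (Φ (Φ f) - c₂ • Φ f - c₁ • f) := fun n => by
    obtain ⟨a, b, c, rfl⟩ := sp n
    exact ⟨a + (b + c * c₂) * c₂ + c * c₁, b + c * c₂, c, by module⟩
  refine ⟨e, R f - c₂ • e, R (Φ f - c₂ • f) - c₁ • e, R (Φ (Φ f) - c₂ • Φ f - c₁ • f) - c₀ • e,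
    y0, ?_, ?_, ?_, ?_, ?_, ?_, fun v => ?_⟩
  iterate 3 simp only [map_sub, map_smul, r, y0, hf, hΦ, smul_zero, sub_zero]
  · simp only [map_sub, map_smul, hf, hΦ, hc]
    module
  · simp only [map_sub, map_smul, r, y0, smul_zero, sub_zero]
    rintro rfl
    have : Subsingleton E := subsingleton_of_forall_eq 0 fun n => by
      obtain ⟨a, b, c, rfl⟩ := sp n
      simp
    rw [Module.finrank_zero_of_subsingleton] at hE
    omega
  · simpa only [map_sub Y, map_smul Y, r, y0, smul_zero, sub_zero] using sp'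
  · obtain ⟨t, ht⟩ := dec v
    obtain ⟨a, b, c, k⟩ := sp' (Y v)
    refine ⟨t + a * c₂ + b * c₁ + c * c₀, a, b, c, ?_⟩
    rw [ht, k, map_add, map_add, map_smul, map_smul, map_smul]
    module

theorem core (q : E →ₗ[ℂ] E →ₗ[ℂ] ℂ) (Y Z : D →ₗ[ℂ] E) (hD : finrank ℂ D = 4)
    (hE : finrank ℂ E = 3) (hs : ∀ a b, q a b = q b a) (hq : ∀ a, (∀ b, q a b = 0) → a = 0)
    (hY : Function.Surjective Y) (h : ∀ c : ℂ, Function.Surjective (Z - c • Y))
    (hi : ∀ (c : ℂ) v, Z v = c • Y v → q (Y v) (Y v) = 0) (v : D)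
    (hv : ∀ v', q (Z v) (Y v') = q (Z v') (Y v)) : v = 0 := by
  obtain ⟨e₀, e₁, e₂, e₃, y0, z0, z1, z2, z3, ne, sp, sp'⟩ := chain hD hE hY h
  generalize hg₁ : Y e₁ = g₁ at *
  generalize hg₂ : Y e₂ = g₂ at *
  generalize hg₃ : Y e₃ = g₃ at *
  have k : ∀ c : ℂ, q g₁ g₁ * c ^ 4 + 2 * q g₁ g₂ * c ^ 3 + (q g₂ g₂ + 2 * q g₁ g₃) * c ^ 2 +
      2 * q g₂ g₃ * c + q g₃ g₃ = 0 := fun c => by
    have := hi c (c ^ 3 • e₀ + c ^ 2 • e₁ + c • e₂ + e₃) (by
      simp only [map_add, map_smul, y0, z0, z1, z2, z3, hg₁, hg₂, hg₃]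
      module)
    simp only [map_add, map_smul, y0, hg₁, hg₂, hg₃, LinearMap.add_apply, LinearMap.smul_apply,
      smul_eq_mul, map_zero, LinearMap.zero_apply, hs g₂ g₁, hs g₃ g₁, hs g₃ g₂] at this
    linear_combination this
  have q33 : q g₃ g₃ = 0 := by linear_combination k 0
  have q23 : q g₂ g₃ = 0 := by
    linear_combination (8 * (k 1 - k (-1)) - (k 2 - k (-2))) / 24
  have q12 : q g₁ g₂ = 0 := by
    linear_combination ((k 2 - k (-2)) - 2 * (k 1 - k (-1))) / 24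
  have q11 : q g₁ g₁ = 0 := by
    linear_combination ((k 2 + k (-2)) - 4 * (k 1 + k (-1)) + 6 * k 0) / 24
  have q22 : q g₂ g₂ = -2 * q g₁ g₃ := by
    linear_combination (16 * (k 1 + k (-1)) - (k 2 + k (-2)) - 30 * k 0) / 24
  have q13 : q g₁ g₃ ≠ 0 := fun c => ne (hq _ fun n => by
    obtain ⟨a, b, d, rfl⟩ := sp n
    simp [q11, q12, c])
  obtain ⟨t, a, b, c, rfl⟩ := sp' v
  have t0 := hv e₀
  have t1 := hv e₁
  have t2 := hv e₂
  have t3 := hv e₃
  simp only [map_add, map_smul, y0, z0, z1, z2, z3, hg₁, hg₂, hg₃, LinearMap.add_apply,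
    LinearMap.smul_apply, smul_eq_mul, map_zero, LinearMap.zero_apply, hs g₂ g₁, hs g₃ g₁,
    hs g₃ g₂, q11, q12, q22, q23, q33] at t0 t1 t2 t3
  have s0 : t = 0 := mul_right_cancel₀ q13 (by linear_combination t3)
  have s1 : a = 0 := mul_right_cancel₀ q13 (by linear_combination -t2 / 3)
  have s2 : b = 0 := mul_right_cancel₀ q13 (by linear_combination t1 / 3)
  have s3 : c = 0 := mul_right_cancel₀ q13 (by linear_combination -t0)
  simp [s0, s1, s2, s3]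

end Vale.Agent.P280Z.G2.KroH
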