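import Vale.Agent.P280Z.G2.Defs
import Vale.Agent.P280Z.G2.Kro1

/-!
# P280Z, block G2: row KRO
-/

namespace Vale.Agent.P280Z.G2

theorem kro : KRO := fun _ _ _ _ _ _ => KroH.core

end Vale.Agent.P280Z.G2
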