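import Vale.Agent.P280Z.G2.Defs

/-!
# P280Z, block G2, row LINE: the fibres of the evaluation map are lines
-/

open scoped Manifold ContDiff Topology Matrix
open Set Filter
open Vale.Agent.P272.K Vale.Agent.P285.H281.FD Vale.Agent.P281Z
open Vale.Agent.P277Z (Hol at_chart)
open Vale.Agent.P277Z.Slc (dd)
open Vale.Agent.P280Z.Mp (Eqs)
open Vale.Agent.P280Z.Ld (Va)
open Module (finrank)

noncomputable section

namespace Vale.Agent.P280Z.G2

/-- **row LINE** -/
theorem line_of (crv : CRV) : LINE := by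
  intro T hT _ X K U p e η κ h k nm M s va hM
  have H := fun x => (Gm.fibi T hT (d := 1) e x rfl nm.se).1
  choose Z i hi using H
  have hg : ∀ x, HolM 1 5 fun z => p (i x z) := fun x => nm.sp.hol.comp (hi x).hol
  have c1 : ∀ x, T.c1 (Z x) (P277.HD.pull (fun z => p (i x z)) M) = T.pull (hi x).hol k := fun x => by
    rw [hT.c1.pull (hg x) _ va.lb, hM, hT.rg.pull_comp (hi x).hol nm.sp.hol _ fun _ => rfl, nm.pk]
  obtain ⟨E, hE⟩ := Ma.rel.ex e 1 nm.se rfl
  have H := fun x => crv T hT (Z x) (P277.HD.pull (fun z => p (i x z)) M)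
    (fun j a z => s j a (p (i x z))) ((hi x).conn.2 (nm.ce x))
    ((hg x).lb va.lb) (fun j => Ld.res_mem (hg x) (va.sec j))
    (eq_empty_of_forall_notMem fun z hz => (va.bpf ▸ hz : p (i x z) ∈ (∅ : Set K.X)))
    (c1 x ▸ nm.kF _ _ x (hi x))
    (by
      obtain ⟨f1, f2⟩ := En.fb hT nm.se rfl hE (hi x)
      have h1 := congrArg (T.pull (hi x).hol) ((Ma.rel.ps T hT nm.se.hol hE).2.2 1)
      rw [map_add, f2 0 _ (hT.ch.deg _ _ _), add_zero, ← f1 0, hT.ch.tan, hT.ch.tan, map_neg,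
        neg_inj, nm.canU, map_smul, map_add, ← nm.eh, f2 0 _ (hT.po.deg nm.kη), zero_add] at h1
      rw [c1, h1])
    (by
      rw [c1]
      exact (Gm.fibi T hT e x rfl nm.se).2 _ _ (hi x) _ 1 (nm.de.trans (map_one _).symm))
  choose ℓ l1 l2 l3 l4 using H
  have key : ∀ u a (χ : Chart 6 U.X) (χ' : Chart 5 X.X) w, p u ∈ M.U a → At χ u → At χ' (e u) →
      df e χ χ' u w = 0 → (fun j => dd (fun y => s j a (p y)) χ u w) ∈ ℓ (e u) ∧
      ∀ c : ℂ, (∀ j, dd (fun y => s j a (p y)) χ u w = c * s j a (p u)) → w = 0 := by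
    intro u a χ χ' w ha hχ hχ' hw
    generalize hx : e u = x
    obtain ⟨z, rfl⟩ := (hi x).ex (y := u) hx
    obtain ⟨v, rfl⟩ := ((hi x).fib_ker nm.se.hol (nm.se.sbm _) (at_chart z) hχ hχ' w).1 hw
    have h1 : ∀ j, dd (fun y => s j a (p y)) χ (i x z) (df (i x) (chartAt _ z) χ z v) =
        dd (fun z => s j a (p (i x z))) (chartAt _ z) z v := fun j =>
      (DFunLike.congr_fun (dd_comp (a := fun y => s j a (p y)) (nm.sp.hol.hol fun c hc =>
        ((va.sec j).1.holo a c _ hc ha).analyticAt) ((hi x).hol.at z) (at_chart z) hχ) v).symm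
    obtain ⟨m1, m2⟩ := l4 x z a _ v ha (at_chart z)
    simp only [h1]
    exact ⟨m1, fun c hc => by rw [m2 c hc, map_zero]⟩
  refine ⟨ℓ, l1, fun u a ha => ?_, fun x w hw => ?_, fun u a χ χ' w h1 h2 h3 h4 =>
    (key u a χ χ' w h1 h2 h3 h4).1, fun u a χ χ' w c h1 h2 h3 h4 => (key u a χ χ' w h1 h2 h3 h4).2 c⟩
  · generalize hx : e u = x
    obtain ⟨z, rfl⟩ := (hi x).ex (y := u) hx
    exact l2 x z a ha
  · obtain ⟨z, a, c, h1, h2⟩ := l3 x w hw
    exact ⟨i x z, a, c, (hi x).fib z, h1, h2⟩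

end Vale.Agent.P280Z.G2
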