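import Vale.Agent.P280Z.G2.Defs

/-!
# P280Z, block G2: rows PEN and ARC
-/

open scoped Manifold ContDiff Topology Matrix
open Set Filter
open Vale.Agent.P272.K Vale.Agent.P285.H281.FD Vale.Agent.P281Z
open Vale.Agent.P277Z (Hol at_chart)
open Vale.Agent.P277Z.Slc (dd)
open Module (finrank)

noncomputable section

namespace Vale.Agent.P280Z.G2

namespace PenH

variable {l N : ℕ} {f g : Cm l → Cm N} {t : Cm l}

/-- the differential of a map with values in a subspace -/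
theorem mem {P : Submodule ℂ (Cm N)} (hf : DifferentiableAt ℂ f t) (h : ∀ᶠ s in 𝓝 t, f s ∈ P)
    (v : Cm l) : fderiv ℂ f t v ∈ P := by
  refine (Subspace.forall_mem_dualAnnihilator_apply_eq_zero_iff P _).1 fun φ hφ => ?_
  have e : (fun s => φ.toContinuousLinearMap (f s)) =ᶠ[𝓝 t] fun _ => 0 :=
    h.mono fun s hs => (Submodule.mem_dualAnnihilator φ).1 hφ _ hs
  have k := (φ.toContinuousLinearMap.hasFDerivAt.comp t hf.hasFDerivAt).fderiv.symm.trans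
    (e.fderiv_eq.trans (hasFDerivAt_const _ _).fderiv)
  exact DFunLike.congr_fun k v

/-- the differential of a relation -/
theorem rel (B : Matrix (Fin N) (Fin N) ℂ) (hf : DifferentiableAt ℂ f t)
    (hg : DifferentiableAt ℂ g t) (h : ∀ᶠ s in 𝓝 t, f s ⬝ᵥ B *ᵥ g s = 0) (v : Cm l) :
    f t ⬝ᵥ B *ᵥ fderiv ℂ g t v + fderiv ℂ f t v ⬝ᵥ B *ᵥ g t = 0 := by
  let Q : Cm N →L[ℂ] Cm N →L[ℂ] ℂ := LinearMap.toContinuousLinearMap
    (LinearMap.toContinuousLinearMap.toLinearMap ∘ₗ Matrix.toLinearMap₂' ℂ B)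
  have hQ : ∀ u w, Q u w = u ⬝ᵥ B *ᵥ w := fun u w => Matrix.toLinearMap₂'_apply' B u w
  have e : (fun s => Q (f s) (g s)) =ᶠ[𝓝 t] fun _ => 0 := h.mono fun s hs => (hQ _ _).trans hs
  have k := (Q.fderiv_of_bilinear hf hg).symm.trans
    (e.fderiv_eq.trans (hasFDerivAt_const _ _).fderiv)
  rw [← hQ, ← hQ]
  exact DFunLike.congr_fun k v

theorem sym {B : Matrix (Fin N) (Fin N) ℂ} (h : Bᵀ = B) (u w : Cm N) :
    u ⬝ᵥ B *ᵥ w = w ⬝ᵥ B *ᵥ u := by
  rw [Matrix.dotProduct_mulVec, ← Matrix.mulVec_transpose, h, dotProduct_comm]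

end PenH

open PenH in
theorem arc : ARC := by
  intro N B P y z τ v hB hP hy hz h yz zz ind
  have hg : AnalyticAt ℂ (fun t => fderiv ℂ y t v) τ :=
    (ContinuousLinearMap.apply ℂ (Cm N) v).analyticAt _ |>.comp hy.fderiv
  have h1 : ∀ᶠ t in 𝓝 τ, fderiv ℂ y t v ∈ P ∧ y t ⬝ᵥ B *ᵥ fderiv ℂ y t v = 0 := by
    filter_upwards [h.eventually_nhds, hy.eventually_analyticAt] with t k1 k2
    have k := rel B k2.differentiableAt k2.differentiableAt (k1.mono fun _ k => k.2) v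
    rw [sym hB (fderiv ℂ y t v)] at k
    exact ⟨mem k2.differentiableAt (k1.mono fun _ k => k.1) v, add_self_eq_zero.1 k⟩
  have h2 := rel B hy.differentiableAt hg.differentiableAt (h1.mono fun _ k => k.2) v
  have h3 := mem hg.differentiableAt (h1.mono fun _ k => k.1) v
  obtain ⟨yP, yy⟩ := h.self_of_nhds
  obtain ⟨gP, yg⟩ := h1.self_of_nhds
  obtain ⟨c, k1, k2⟩ := Fintype.not_linearIndependent_iff.1
    (show ¬ LinearIndependent ℂ (![⟨_, yP⟩, ⟨_, hz⟩, ⟨_, gP⟩, ⟨_, h3⟩] : Fin 4 → P) from fun k => by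
      have := k.fintype_card_le_finrank
      rw [Fintype.card_fin] at this
      omega)
  have k3 : c 0 • y τ + c 1 • z + c 2 • fderiv ℂ y τ v +
      c 3 • fderiv ℂ (fun t => fderiv ℂ y t v) τ v = 0 := by
    simpa [Fin.sum_univ_four] using congrArg Subtype.val k1
  generalize fderiv ℂ (fun t => fderiv ℂ y t v) τ v = g' at *
  generalize fderiv ℂ y τ v = g at *
  have k4 : ∀ w, c 0 * w ⬝ᵥ B *ᵥ y τ + c 1 * w ⬝ᵥ B *ᵥ z + c 2 * w ⬝ᵥ B *ᵥ g +
      c 3 * w ⬝ᵥ B *ᵥ g' = 0 := fun w => by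
    simpa [Matrix.mulVec_add, Matrix.mulVec_smul] using congrArg (fun u => w ⬝ᵥ B *ᵥ u) k3
  by_cases c3 : c 3 = 0
  · have c2 : c 2 ≠ 0 := fun c2 => by
      obtain ⟨c0, c1⟩ := ind (c 0) (c 1) (by simpa [c2, c3] using k3)
      obtain ⟨i, hi⟩ := k2
      fin_cases i <;> exact hi ‹_›
    have a1 := k4 z
    have a2 := k4 g
    rw [c3, sym hB z (y τ), yz, zz] at a1
    rw [c3, sym hB g (y τ), yg, sym hB g z] at a2
    refine mul_left_cancel₀ (mul_ne_zero c2 c2) ?_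
    linear_combination c 2 * a2 - c 1 * a1
  · have a1 := k4 (y τ)
    rw [yy, yz, yg] at a1
    refine mul_left_cancel₀ c3 ?_
    linear_combination c 3 * h2 - a1

theorem pen_of (hD : DER) : PEN := by
  intro X K U p e M s B ℓ ι O y z g i x χ' hx hχ hF
  refine ⟨hD B ℓ O y z g.fr i x χ' hx hχ, g.qd.det, fun α β h0 w hw => ?_⟩
  obtain ⟨u, a, c, rfl, ha, h1⟩ := g.ln.onto x _ ((g.fr.mem i x hx _).2 ⟨α, β, rfl⟩)
  have hc : c ≠ 0 := fun k => by
    obtain ⟨k1, k2⟩ := g.fr.ind i _ hx α β (by rw [h1, k, zero_smul])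
    exact h0.elim (· k1) (· k2)
  have h2 : (fun j => s j a (p u)) = (c⁻¹ * α) • y i (e u) + (c⁻¹ * β) • z i (e u) := by
    rw [mul_smul, mul_smul, ← smul_add, h1, inv_smul_smul₀ hc]
  rw [h1, smul_dotProduct, smul_eq_zero_iff_right hc] at hw
  obtain ⟨c₁, v, rfl⟩ := (g.qd.tan a (p u) _ ha (at_chart _) w).1 hw
  obtain ⟨w₁, rfl⟩ := g.sp.sbm u _ _ (at_chart u) (at_chart (p u)) v
  obtain ⟨c₂, c₃, h3⟩ := hF u a _ _ _ rfl ha (at_chart u) h2 w₁
  refine ⟨c⁻¹ • df e (chartAt (Cm 6) u) χ' u w₁, c₁ * (c⁻¹ * α) + c₂, c₁ * (c⁻¹ * β) + c₃,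
    funext fun j => ?_⟩
  have h4 := dd_comp (a := s j a)
    (fun e' he' => ((g.qd.va.sec j).1.holo a e' _ he' ha).analyticAt) (g.sp.hol.at u)
    (at_chart u) (at_chart (p u))
  have h5 := congrFun h3 j
  rw [h4, ContinuousLinearMap.comp_apply] at h5
  simp only [map_smul, Pi.add_apply, Pi.smul_apply, smul_eq_mul] at h5 ⊢
  rw [congrFun h2 j]
  simp only [Pi.add_apply, Pi.smul_apply, smul_eq_mul]
  linear_combination h5

end Vale.Agent.P280Z.G2
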