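import Vale.Agent.P280Z.G2.Defs
import Vale.Agent.P280Z.Gm.Fibi

/-!
# P280Z, block G2: the lines through a point lie in a plane
-/

open scoped Manifold ContDiff Topology Matrix
open Set Filter
open Vale.Agent.P272.K Vale.Agent.P285.H281.FD Vale.Agent.P281Z
open Vale.Agent.P277Z.Slc (dd)
open Vale.Agent.P277.HD (pull)
open Vale.Agent.P280Z.Ld (Va)
open Module (finrank Dual)

noncomputable section

namespace Vale.Agent.P280Z.G2

namespace PlaneX

theorem pair {N : ℕ} {P : Submodule ℂ (Cm N)} {x y : Cm N} (h : finrank ℂ P = 2) (hx : x ∈ P)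
    (hy : y ∈ P) (h0 : x ≠ 0) (h1 : ∀ c : ℂ, c • x ≠ y) {v : Cm N} (hv : v ∈ P) :
    ∃ a b : ℂ, a • x + b • y = v := by
  have h2 := finrank_span_eq_card ((LinearIndependent.pair_iff' h0).2 h1)
  rw [Matrix.range_cons_cons_empty, Fintype.card_fin] at h2
  have h3 : Submodule.span ℂ {x, y} = P := Submodule.eq_of_le_of_finrank_eq
    (Submodule.span_le.2 (pair_subset hx hy)) (h2.trans h.symm)
  exact Submodule.mem_span_pair.1 (h3.ge hv)

theorem val {N : ℕ} (f : Dual ℂ (Cm N)) (x y : Cm N) (b : Fin N) :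
    ∑ a, f (Pi.single a 1) * (x a * y b - x b * y a) = f x * y b - x b * f y := by
  have h : ∀ v : Cm N, f v = ∑ a, v a * f (Pi.single a 1) := fun v => by
    conv_lhs => rw [pi_eq_sum_univ' v, map_sum]
    simp only [map_smul, smul_eq_mul]
  rw [h x, h y, Finset.sum_mul, Finset.mul_sum, ← Finset.sum_sub_distrib]
  exact Finset.sum_congr rfl fun a _ => by ring

theorem sec {n N : ℕ} {V : Mf n} {R : Bd V.X} {J : Fin N → R.ι → V.X → ℂ} (c : Fin N → ℂ)
    (h : ∀ a, IsSec n R (J a)) : IsSec n R fun ρ x => ∑ a, c a * J a ρ x :=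
  ⟨fun ρ e x he hρ => ContDiffAt.sum fun a _ => contDiffAt_const.mul ((h a).holo ρ e x he hρ),
    fun ρ ρ' x k k' => by
      rw [Finset.mul_sum]
      exact Finset.sum_congr rfl fun a _ => by rw [(h a).change ρ ρ' x k k', mul_left_comm]⟩

end PlaneX

open PlaneX

theorem plane_of (jac : JAC) (two : TWO) : PLANE := by
  intro T hT _ X K U p e η κ h k nm M s ℓ va hκ ln l
  obtain ⟨R, J, lR, sJ, cR, loc⟩ := jac X U e nm.se (pull p M) (fun j a u => s j a (p u))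
    (nm.sp.hol.lb va.lb) fun j => nm.sp.hol.sec (va.sec j).1
  have c1 : T.c1 U R = h := by
    rw [cR T hT, hT.c1.pull nm.sp.hol M va.lb, hκ, nm.pk, nm.canU, nm.canX, map_smul, nm.eh]
    module
  obtain ⟨⟨G, i, hi⟩, hint⟩ := Gm.fibi T hT (d := 1) p l rfl nm.sp
  have cG : ConnectedSpace G.X := hi.conn.2 (nm.cp l)
  have deg : T.int G (T.c1 G (pull i R)) = 1 := by
    rw [hT.c1.pull hi.hol R lR, c1]
    exact hint G i hi h 1 (nm.dp.trans (map_one _).symm)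
  have hp : ∀ z, p (i z) = l := fun z => hi.rng.le ⟨z, rfl⟩
  have loc' : ∀ u, ∃ (r : R.ι) (a : M.ι) (x y : Cm 7), u ∈ R.U r ∧ p u ∈ M.U a ∧
      x = (fun j => s j a (p u)) ∧ y ∈ ℓ (e u) ∧ (∀ c : ℂ, c • x ≠ y) ∧
      ∀ i j, J i j r u = x i * y j - x j * y i := fun u => by
    obtain ⟨r, a, χ, χ', w, hr, ha, hχ, hχ', hw, hd, hJ⟩ := loc u
    exact ⟨r, a, _, _, hr, ha, rfl, ln.der u a χ χ' w ha hχ hχ' hd, fun c hc => hw
      (ln.imm u a χ χ' w c ha hχ hχ' hd fun j => (congrFun hc j).symm), hJ⟩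
  choose r a x y hr ha hx m1 ind hJ using loc'
  have nz : ∀ u, x u ≠ 0 := fun u h0 => by
    have h1 : p u ∈ Ld.Bs M s := fun j hj => hj _ (ha u) (congrFun ((hx u).symm.trans h0) j)
    rw [va.bpf] at h1
    exact h1
  have nzi : ∀ (f : Dual ℂ (Cm 7)) b z, ¬ NZ (pull i R)
      (fun ρ z => ∑ c, f (Pi.single c 1) * J c b ρ (i z)) z ↔
      f (x (i z)) * y (i z) b - x (i z) b * f (y (i z)) = 0 := fun f b z => by
    rw [nz_iff (hi.hol.lb lR) (fun ρ ρ' => (hi.hol.sec (sec _ fun c => sJ c b)).change ρ ρ' z)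
      (a := r (i z)) (hr _), not_not, ← val]
    simp only [hJ]
  by_cases hs : ∃ z₁ z₂ : G.X, z₁ ≠ z₂
  · obtain ⟨z₁, z₂, hz⟩ := hs
    have m0 : ∀ z z', x (i z') ∈ ℓ (e (i z)) := fun z z' => by
      have h2 := ln.mem (i z) (a (i z'))
      rw [hp z, ← hp z', ← hx] at h2
      exact h2 (ha _)
    refine ⟨ℓ (e (i z₁)) ⊔ ℓ (e (i z₂)), ?_, fun u hu v hv => ?_⟩
    · have h1 := Submodule.finrank_sup_add_finrank_inf_eq (ℓ (e (i z₁))) (ℓ (e (i z₂)))
      have h2 : 1 ≤ finrank ℂ ↥(ℓ (e (i z₁)) ⊓ ℓ (e (i z₂))) := Submodule.one_le_finrank_iff.2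
        ((Submodule.ne_bot_iff _).2 ⟨_, ⟨m0 z₁ z₁, m0 z₂ z₁⟩, nz _⟩)
      rw [ln.dim, ln.dim] at h1
      omega
    · obtain ⟨z, rfl⟩ := hi.rng.ge hu
      by_contra hn
      obtain ⟨f, f1, f2⟩ := Submodule.exists_dual_map_eq_bot_of_notMem hn inferInstance
      have f3 : ∀ x ∈ ℓ (e (i z₁)) ⊔ ℓ (e (i z₂)), f x = 0 := fun x hx => f2.le ⟨x, hx, rfl⟩
      have f4 := f3 _ (Submodule.mem_sup_left (m0 z₁ z))
      obtain ⟨b, hb⟩ := Function.ne_iff.1 (nz (i z))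
      have f5 := (nzi f b z).1 (two T hT G _ _ z₁ z₂ inferInstance (hi.hol.lb lR)
        (hi.hol.sec (sec _ fun c => sJ c b)) deg hz ((nzi f b z₁).2 (by
          rw [f3 _ (Submodule.mem_sup_left (m0 z₁ z₁)), f3 _ (Submodule.mem_sup_left (m1 _)),
            zero_mul, mul_zero, sub_zero])) ((nzi f b z₂).2 (by
          rw [f3 _ (Submodule.mem_sup_right (m0 z₂ z₂)), f3 _ (Submodule.mem_sup_right (m1 _)),
            zero_mul, mul_zero, sub_zero])) z)
      rw [f4, zero_mul, zero_sub, neg_eq_zero] at f5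
      obtain ⟨α, β, rfl⟩ := pair (ln.dim _) (m0 z z) (m1 _) (nz _) (ind _) hv
      exact f1 (by rw [map_add, map_smul, map_smul, f4, (mul_eq_zero.1 f5).resolve_left hb,
        smul_zero, smul_zero, add_zero])
  · obtain ⟨z₀⟩ : Nonempty G.X := inferInstance
    refine ⟨ℓ (e (i z₀)), (ln.dim _).le.trans (by norm_num), fun u hu => ?_⟩
    obtain ⟨z, rfl⟩ := hi.rng.ge hu
    rw [not_not.1 fun c => hs ⟨z, z₀, c⟩]

end Vale.Agent.P280Z.G2
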