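import Vale.Agent.P280Z.G2.Defs

/-!
# P280Z, block G2: a fivefold of degree two is a smooth quadric
-/

open scoped Manifold ContDiff Topology Matrix
open Set Filter
open Vale.Agent.P272.K Vale.Agent.P285.H281.FD Vale.Agent.P281Z
open Vale.Agent.P277Z (Hol at_chart hol_const)
open Vale.Agent.P277Z.Slc (dd)
open Vale.Agent.P280Z.Ld (Va)
open Module (finrank)

noncomputable section

namespace Vale.Agent.P280Z.G2

namespace QbH

open En.ValX in
/-- a quadric which contains the manifold as a hypersurface of its smooth part is smooth -/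
theorem det_ne {T : CT} (hT : T.OK) {n N : ℕ} {K : Mf n} {M : Bd K.X}
    {s : Fin N → M.ι → K.X → ℂ} {B : Matrix (Fin N) (Fin N) ℂ} (va : Va n M s)
    (hd : T.int K (T.c1 K M ^ n) ≠ 0) (sym : Bᵀ = B)
    (ne : ∀ a x, x ∈ M.U a → ∃ w, (fun j => s j a x) ⬝ᵥ B *ᵥ w ≠ 0)
    (tan : ∀ a x (χ : Chart n K.X), x ∈ M.U a → At χ x → ∀ w, (fun j => s j a x) ⬝ᵥ B *ᵥ w = 0 →
      ∃ c v, w = fun j => c * s j a x + dd (s j a) χ x v) : B.det ≠ 0 := by
  intro h0
  obtain ⟨v, hv, hB⟩ := Matrix.exists_mulVec_eq_zero_iff.2 h0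
  have k1 : ∀ a x (c : ℂ), x ∈ M.U a → v ≠ fun j => c * s j a x := fun a x c ha k => by
    obtain ⟨w, hw⟩ := ne a x ha
    have hc : c ≠ 0 := by
      rintro rfl
      exact hv (k.trans (funext fun j => zero_mul _))
    have : v ⬝ᵥ B *ᵥ w = 0 := by
      rw [Matrix.dotProduct_mulVec, ← Matrix.mulVec_transpose, sym, hB, zero_dotProduct]
    rw [k, show (fun j => c * s j a x) = c • fun j => s j a x from rfl, smul_dotProduct] at this
    exact hw ((smul_eq_zero.1 this).resolve_left hc)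
  let t : Fin N × Fin N → M.ι → K.X → ℂ := fun p => v p.1 • s p.2 - v p.2 • s p.1
  have ht : ∀ p, t p ∈ Ld.Γ n M := fun p =>
    sub_mem (Submodule.smul_mem _ _ (va.sec _)) (Submodule.smul_mem _ _ (va.sec _))
  obtain ⟨a, x, e, ha, he, h⟩ := En.ima_of Ld.iso T hT K M _ t va.lb (fun p => (ht p).1)
    (eq_empty_of_forall_notMem fun x hx => by
      obtain ⟨a, ha⟩ := va.lb.cover x
      obtain ⟨l, hl⟩ := not_forall.1 fun k => (va.bpf ▸ (k : x ∈ Ld.Bs M s) : x ∈ (∅ : Set K.X))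
      have hl := not_not.1 hl a ha
      refine k1 a x (v l / s l a x) ha (funext fun j => ?_)
      have k : v j * s l a x - v l * s j a x = 0 :=
        not_not.1 (mt (nz_iff va.lb ((ht (j, l)).1.change · · x) ha).2 (hx (j, l)))
      rw [div_mul_eq_mul_div, eq_div_iff hl]
      exact sub_eq_zero.1 k) hd
  obtain ⟨c, ξ, k⟩ := tan a x e ha he v (by rw [hB, dotProduct_zero])
  have hs := fun j => sec_hol (va.sec j).1 ha
  have h1 : ξ = 0 := h ξ (-c) fun p => by
    have e1 : t p a = fun y => v p.1 * s p.2 a y + -v p.2 * s p.1 a y :=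
      funext fun y => (sub_eq_add_neg _ _).trans (congrArg _ (neg_mul _ _).symm)
    rw [e1, dd_a ((hol_const _ _).mul (hs _)) ((hol_const _ _).mul (hs _)) he,
      dd_m (hol_const _ _) (hs _) he, dd_m (hol_const _ _) (hs _) he, dd_c, dd_c]
    linear_combination v p.2 * congrFun k p.1 - v p.1 * congrFun k p.2
  exact k1 a x c ha (k.trans (funext fun j => by rw [h1, map_zero, add_zero]))

end QbH

/-- **row QB** -/
theorem qb_of (sqd : SQD) (one : ONE) : QB := by
  intro T hT K M β h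
  obtain ⟨b⟩ := h.basis hT
  obtain ⟨-, va, k⟩ := h.emb hT b
  have e1 : Ld.Γ 5 M * Ld.Γ 5 M = En.Rm 5 M 2 := by
    rw [← sq]
    exact le_antisymm ((En.pow_ K M h.lb).2.1 1) ((h.gen En.tns En.gns hT).2 1)
  obtain ⟨B, hB, hu⟩ := one _ (fun j => (b j).1) (Ld.Γ 5 M) (by
    rw [show range (fun j => (b j).1) = (Ld.Γ 5 M).subtype '' range b from range_comp _ _,
      ← Submodule.map_span, b.span_eq, Submodule.map_top, Submodule.range_subtype]) (by
    have := sqd T hT K M β h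
    rw [e1]
    change Ld.h0 (4 + 1) (M.pow 2) = 27
    omega)
  have k2 : ∀ φ w, w ∈ En.Kq (fun j => (b j).1) φ ↔ φ ⬝ᵥ B *ᵥ w = 0 := fun φ w =>
    ⟨fun k => k B hB, fun k B' h' => by
      obtain ⟨c, rfl⟩ := hu B' h'
      rw [Matrix.smul_mulVec, dotProduct_smul, k, smul_zero]⟩
  have tan := fun a x χ ha hχ w =>
    ((k2 _ w).symm.trans (SetLike.ext_iff.1 (k a x χ ha hχ) w).symm).trans (En.mem_Tc va ha hχ)
  refine ⟨_, B, va, hB.1, QbH.det_ne hT va (by rw [h.deg]; norm_num) hB.1 (fun a x ha => ?_)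
    fun a x χ ha hχ w => (tan a x χ ha hχ w).1, tan⟩
  by_contra! c
  have := En.finrank_Tc va ha (at_chart x)
  rw [k a x _ ha (at_chart x), Submodule.eq_top_iff'.2 fun w => (k2 _ w).2 (c w)] at this
  simp at this

end Vale.Agent.P280Z.G2
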