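import Vale.Agent.P280Z.G2.Defs

/-!
# P280Z, block G2: the sections of the square, the unique quadric
-/

open scoped Manifold ContDiff Topology Matrix
open Set Filter
open Vale.Agent.P272.K Vale.Agent.P285.H281.FD Vale.Agent.P281Z Vale.Agent.P280Z.Ld
open Vale.Agent.P277.HD (pull)
open Module (finrank)

noncomputable section

namespace Vale.Agent.P280Z.G2

theorem sqd : SQD := by
  intro T hT n
  have stp : ∀ {m : ℕ} {V : Mf (m + 1)} {Z : Mf m} {L : Bd V.X} {β : T.H V}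
      {σ : L.ι → V.X → ℂ} {i : Z.X → V.X}, En.MD T V L β 2 → Cut L σ i →
      h0 (m + 1) (L.pow 2) = 2 + m + 1 + h0 m ((pull i L).pow 2) := fun h hc => by
    rw [← (h.gen En.tns En.gns hT).1]
    refine ld.step T hT hc (Bd.pow _ 2) _ id id (En.CutdA.ml2 h.lb) ?_
    rw [Ap, sub_eq_add_neg]
    exact hT.po.mono (hT.po.add h.kc (h.fano hT)) fun _ => inf_le_left
  induction n with
  | zero =>
    intro V L β h
    obtain ⟨σ, Z, i, hc, -⟩ := En.LadH.ex_cut ld h.lb h.bpf
    have k := hT.pl hc 1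
    rw [mul_one, map_one, hT.rg.int_pt, ← pow_one (T.c1 V L), h.deg, Nat.cast_inj] at k
    rw [stp h hc, (pt Z _ (lb_pow (hc.emb.hol.lb h.lb) 2)).2.1, ← k]
  | succ n ih =>
    intro V L β h
    obtain ⟨σ, Z, i, hc, -⟩ := En.LadH.ex_cut ld h.lb h.bpf
    have k := ih Z _ _ (h.cut hT hc)
    rw [stp h hc, mul_add, add_assoc, k]
    ring

namespace SqdH

/-- ordered pairs -/
abbrev Pr : Type := {p : Fin 7 × Fin 7 // p.1 ≤ p.2}

theorem card_Pr : Fintype.card Pr = 28 := by rfl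

/-- the triangular matrix of coefficients -/
def C (c : Pr → ℂ) : Matrix (Fin 7) (Fin 7) ℂ :=
  Matrix.of fun i j => if h : i ≤ j then c ⟨(i, j), h⟩ else 0

theorem sum_C {M : Type} [AddCommGroup M] [Module ℂ M] (c : Pr → ℂ) (g : Fin 7 → Fin 7 → M) :
    ∑ i, ∑ j, C c i j • g i j = ∑ p : Pr, c p • g p.1.1 p.1.2 := by
  rw [← Fintype.sum_prod_type' fun i j => C c i j • g i j,
    ← Fintype.sum_subtype_add_sum_subtype fun p : Fin 7 × Fin 7 => p.1 ≤ p.2,
    Finset.sum_eq_zero (s := (Finset.univ : Finset {p : Fin 7 × Fin 7 // ¬ p.1 ≤ p.2}))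
      fun p _ => by rw [C, Matrix.of_apply, dif_neg p.2, zero_smul], add_zero]
  exact Finset.sum_congr rfl fun p _ => by rw [C, Matrix.of_apply, dif_pos p.2]

theorem sum_B {A : Type} [CommRing A] [Algebra ℂ A] (s : Fin 7 → A) (c : Pr → ℂ) :
    ∑ i, ∑ j, (C c + (C c)ᵀ) i j • (s i * s j) =
      (2 : ℂ) • Fintype.linearCombination ℂ (fun p : Pr => s p.1.1 * s p.1.2) c := by
  rw [Fintype.linearCombination_apply, ← sum_C c fun i j => s i * s j, two_smul]
  simp only [Matrix.add_apply, Matrix.transpose_apply, add_smul, Finset.sum_add_distrib]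
  rw [Finset.sum_comm (f := fun i j => C c j i • (s i * s j))]
  simp only [mul_comm]

theorem range_eq {A : Type} [CommRing A] [Algebra ℂ A] (s : Fin 7 → A) :
    LinearMap.range (Fintype.linearCombination ℂ fun p : Pr => s p.1.1 * s p.1.2) =
      Submodule.span ℂ (range s) * Submodule.span ℂ (range s) := by
  rw [Fintype.range_linearCombination, Submodule.span_mul_span]
  congr 1
  refine Subset.antisymm ?_ ?_
  · rintro _ ⟨p, rfl⟩
    exact ⟨_, mem_range_self _, _, mem_range_self _, rfl⟩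
  · rintro _ ⟨_, ⟨i, rfl⟩, _, ⟨j, rfl⟩, rfl⟩
    rcases le_total i j with h | h
    · exact ⟨⟨(i, j), h⟩, rfl⟩
    · exact ⟨⟨(j, i), h⟩, mul_comm _ _⟩

theorem C_smul (t : ℂ) (c : Pr → ℂ) : C (t • c) = t • C c := Matrix.ext fun i j => by
  simp only [C, Matrix.of_apply, Matrix.smul_apply, Pi.smul_apply]
  split_ifs
  exacts [rfl, (smul_zero _).symm]

theorem ex_C {B : Matrix (Fin 7) (Fin 7) ℂ} (h : Bᵀ = B) : ∃ c, B = C c + (C c)ᵀ := by
  refine ⟨fun p => if p.1.1 = p.1.2 then B p.1.1 p.1.2 / 2 else B p.1.1 p.1.2,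
    Matrix.ext fun i j => ?_⟩
  have k : B j i = B i j := congrFun₂ h i j
  simp only [C, Matrix.add_apply, Matrix.transpose_apply, Matrix.of_apply]
  rcases lt_trichotomy i j with e | rfl | e
  · rw [dif_pos e.le, dif_neg e.not_ge, if_neg e.ne, add_zero]
  · rw [dif_pos le_rfl, if_pos rfl, add_halves]
  · rw [dif_neg e.not_ge, dif_pos e.le, if_neg e.ne, zero_add, k]

end SqdH

open SqdH in
theorem one_ : ONE := by
  intro A _ _ s W hW h27
  subst hW
  have h1 := (Fintype.linearCombination ℂ fun p : Pr =>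
    s p.1.1 * s p.1.2).finrank_range_add_finrank_ker
  rw [range_eq, h27, Module.finrank_fintype_fun_eq_card, card_Pr] at h1
  obtain ⟨c₀, -, hc⟩ := finrank_eq_one_iff'.1 (show finrank ℂ (LinearMap.ker
    (Fintype.linearCombination ℂ fun p : Pr => s p.1.1 * s p.1.2)) = 1 by omega)
  refine ⟨C c₀.1 + (C c₀.1)ᵀ, ⟨by
    rw [Matrix.transpose_add, Matrix.transpose_transpose, add_comm], ?_⟩, fun B hB => ?_⟩
  · rw [sum_B, LinearMap.mem_ker.1 c₀.2, smul_zero]
  obtain ⟨c, rfl⟩ := ex_C hB.1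
  have k := hB.2
  rw [sum_B] at k
  obtain ⟨t, ht⟩ := hc ⟨c, LinearMap.mem_ker.2 ((smul_eq_zero.1 k).resolve_left two_ne_zero)⟩
  refine ⟨t, ?_⟩
  rw [show c = t • c₀.1 from (congrArg Subtype.val ht).symm, C_smul, Matrix.transpose_smul,
    smul_add]

end Vale.Agent.P280Z.G2
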