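import Vale.Agent.P280Z.G2.Num
import Vale.Agent.P280Z.G2.B2k
import Vale.Agent.P280Z.G2.Diag
import Vale.Agent.P280Z.G2.Bpf
import Vale.Agent.P280Z.G2.Sqd
import Vale.Agent.P280Z.G2.Qb
import Vale.Agent.P280Z.G2.Crv
import Vale.Agent.P280Z.G2.Line
import Vale.Agent.P280Z.G2.Jac
import Vale.Agent.P280Z.G2.Plane
import Vale.Agent.P280Z.G2.Frm
import Vale.Agent.P280Z.G2.Crm
import Vale.Agent.P280Z.G2.Pen
import Vale.Agent.P280Z.G2.Iso
import Vale.Agent.P280Z.G2.Kro
import Vale.Agent.P280Z.G2.La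
import Vale.Agent.P280Z.G2.Hal
import Vale.Agent.P280Z.G2.Ham

/-!
# P280Z, block G2: assembly
-/

namespace Vale.Agent.P280Z.G2

theorem g51 : G51 :=
  g51_of num (b2k_of diag) bpf (qb_of sqd one_) (line_of crv) (plane_of jac two) frm form
    (pen_of der) (iso_of arc) (la_of kro) (ham_of crm der hal)

end Vale.Agent.P280Z.G2
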