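import Vale.Agent.P280Z.G2.Diag
import Vale.Agent.P280Z.G2.WlD
import Vale.Agent.P280Z.Rh.Api
import Vale.Agent.P280Z.Ma.Ex

/-!
# P280Z, block G2: classes of degree zero on the fibres
-/

open scoped Manifold ContDiff Topology Matrix
open Set Filter
open Vale.Agent.P272.K Vale.Agent.P285.H281.FD Vale.Agent.P281Z Vale.Agent.P280Z.Ma

noncomputable section

namespace Vale.Agent.P280Z.G2

namespace WlH

theorem der {A : Type} [CommRing A] [Algebra ℝ A] (φ : A →ₗ[ℝ] ℝ) (a y : A) (t : ℝ) (n : ℕ) :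
    ∀ u, HasDerivAt (fun t : ℝ => φ (u * (a + t • y) ^ n))
      (n * φ (u * y * (a + t • y) ^ (n - 1))) t := by
  induction n with
  | zero => intro u; simpa using hasDerivAt_const t (φ u)
  | succ n ih =>
    intro u
    have e : ∀ (k : ℕ) (v : A) (t : ℝ), φ (v * (a + t • y) ^ (k + 1)) =
        φ (v * a * (a + t • y) ^ k) + t * φ (v * y * (a + t • y) ^ k) := fun k v t => by
      rw [← smul_eq_mul t, ← map_smul, ← map_add, pow_succ', ← mul_assoc, mul_add, add_mul,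
        mul_smul_comm, smul_mul_assoc]
    simp only [e]
    refine ((ih (u * a)).add ((hasDerivAt_id' t).mul (ih (u * y)))).congr_deriv ?_
    cases n with
    | zero => simp
    | succ n =>
      rw [Nat.add_sub_cancel, Nat.add_sub_cancel, e n (u * y), mul_right_comm u a y]
      push_cast
      ring

theorem der_nn {G : ℝ → ℝ} {g : ℝ} (h : HasDerivAt G g 0) (h0 : G 0 = 0)
    (hp : ∀ t, 0 < t → 0 ≤ G t) : 0 ≤ g :=
  ge_of_tendsto h.tendsto_slope_zero_right (eventually_nhdsWithin_of_forall fun t ht => by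
    rw [zero_add, h0, sub_zero]
    exact mul_nonneg (inv_pos.2 ht).le (hp t ht))

variable {T : CT} {m : ℕ}

/-- the index theorem of Hodge -/
theorem hi (hT : T.OK) {V : Mf (m + 2)} (hV : PreconnectedSpace V.X) (z : V.X) {w x : T.H V}
    (hw : T.Kc V w) (tx : x ∈ T.Ty V) (dx : T.Dg V 1 x) :
    T.int V (x * x * w ^ m) * T.int V (1 * w ^ (m + 2)) ≤ T.int V (x * w ^ (m + 1)) ^ 2 := by
  have v := kc_vol hT hw z
  obtain ⟨c, hc⟩ : ∃ c, c * T.int V (w ^ (m + 2)) = T.int V (x * w ^ (m + 1)) :=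
    ⟨_, div_mul_cancel₀ _ v.ne'⟩
  have da : T.Dg V 1 (x - c • w) := by rw [CT.Dg, map_sub, map_smul, dx, hT.po.deg hw]
  have k : T.int V ((x - c • w) * (x - c • w) * w ^ m) ≤ 0 := by
    by_cases h : x - c • w = 0
    · rw [h, zero_mul, zero_mul, map_zero]
    have := hT.ho.hr hw 1 m (by omega) _
      (sub_mem tx ((T.Ty V).smul_mem (Rh.nn_ty hT (Rh.kc_nn hT hw)) c)) da
      (Ld.ConnX.top0 hT ((hT.po.kah V).2 ⟨_, hw⟩) hV
        (hT.rg.dg_mul V (m + 1) 1 _ _ (dg_pow hT (hT.po.deg hw) _) da) (by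
          rw [mul_sub, mul_smul_comm, ← pow_succ, map_sub, map_smul, mul_comm, ← hc]
          exact sub_self _)) h
    linarith
  rw [show (x - c • w) * (x - c • w) * w ^ m = x * x * w ^ m - (2 * c) • (x * w ^ (m + 1)) +
    (c * c) • w ^ (m + 2) by algebra, map_add, map_sub, map_smul, map_smul, ← hc] at k
  simp only [smul_eq_mul] at k
  rw [one_mul, ← hc]
  nlinarith

/-- the relative index theorem -/
theorem lim (hT : T.OK) {V : Mf (m + 2)} {B : Mf (m + 1)} {f : V.X → B.X}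
    (sf : Sub (m + 2) (m + 1) f) (hs : Function.Surjective f) (hB : ConnectedSpace B.X)
    (hV : PreconnectedSpace V.X) (kV : V.Kah) {β : T.H B} (hβ : T.Kc B β) {x : T.H V}
    (tx : x ∈ T.Ty V) (dx : T.Dg V 1 x) (hx : T.push f x = 0) :
    T.int V (x * x * T.pull sf.hol β ^ m) ≤ 0 := by
  obtain ⟨w, hw⟩ := (hT.po.kah V).1 kV
  obtain ⟨y⟩ := hB.toNonempty
  obtain ⟨z, -⟩ := hs y
  obtain ⟨D, hD, eD⟩ := Rh.push_vol hT sf (d := 1) rfl hs hB hw
  have e : ∀ u k, T.int V (u * (T.pull sf.hol β + (0 : ℝ) • w) ^ k) =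
      T.int B (T.push f u * β ^ k) := fun u k => by
    rw [zero_smul, add_zero, ← map_pow, ← hT.pu.proj sf, hT.pu.int sf]
  have a0 := e x (m + 1)
  have c0 := e 1 (m + 2)
  have c1 := e (1 * w) (m + 2 - 1)
  rw [hx, zero_mul, map_zero] at a0
  rw [push_one hT sf, zero_mul, map_zero] at c0
  rw [show T.push f (1 * w) = algebraMap ℝ _ D by rw [one_mul, ← eD, pow_one], ← Algebra.smul_def,
    map_smul] at c1
  have k := der_nn (((der (T.int V) _ w 0 (m + 1) x).pow 2).sub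
    ((der (T.int V) _ w 0 m (x * x)).mul (der (T.int V) _ w 0 (m + 2) 1)))
    (by simp only [Pi.sub_apply, Pi.pow_apply, Pi.mul_apply, a0, c0]; ring) fun t ht =>
      sub_nonneg.2 (hi hT hV z (add_comm (t • w) _ ▸ kc_add hT (hT.po.smul t ht hw)
        (nn_pull hT sf.hol hβ)) tx dx)
  rw [a0, c0, c1, zero_smul, add_zero] at k
  have v : 0 < ((m + 2 : ℕ) : ℝ) * D • T.int B (β ^ (m + 2 - 1)) :=
    mul_pos (by positivity) (mul_pos hD (kc_vol hT hβ y))
  by_contra! h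
  have := mul_pos h v
  norm_num at k this
  linarith

end WlH

open WlH

/-- **classes of degree zero on the fibres** -/
theorem wl0 {T : CT} (hT : T.OK) {m : ℕ} {X : Mf (m + 1)} {U : Mf (m + 2)} {e : U.X → X.X}
    (se : Sub (m + 2) (m + 1) e) (cU : ConnectedSpace U.X) (cX : ConnectedSpace X.X)
    (ce : ∀ x, IsConnected (e ⁻¹' {x})) (hU : U.Kah) {b : T.H U} (tb : b ∈ T.Ty U)
    (db : T.Dg U 1 b) (hb : T.push e b = 0) (h2 : T.push e (b * b) = 0) :
    ∃ a, T.Dg X 1 a ∧ b = T.pull se.hol a := by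
  obtain ⟨W, q1, q2, dg, D, s, c, hc, h1, h2', cW, -⟩ :=
    diag T hT X U e se cU fun x => (ce x).isPreconnected
  obtain ⟨w0, k0⟩ := (hT.po.kah U).1 hU
  have g1 : ∀ b, T.pull hc.emb.hol (T.pull c.sf'.hol b) = b := fun b => by
    rw [← hT.rg.pull_comp hc.emb.hol c.sf'.hol holM_id fun x => (h1 x).symm, hT.rg.pull_id]
  have g2 : ∀ b, T.pull hc.emb.hol (T.pull c.hg' b) = b := fun b => by
    rw [← hT.rg.pull_comp hc.emb.hol c.hg' holM_id fun x => (h2' x).symm, hT.rg.pull_id]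
  have dg0 : ∀ b, T.push q1 (T.c1 W D * T.pull c.hg' b) = b := fun b => by
    refine sub_eq_zero.1 (hT.ho.pd U hU _ fun b' => ?_)
    rw [sub_mul, map_sub, ← hT.pu.proj c.sf', hT.pu.int c.sf', mul_assoc, hT.pl hc, map_mul, g1, g2,
      sub_self]
  have bc : ∀ b, T.push q1 (T.pull c.hg' b) = T.pull se.hol (T.push e b) := fun b =>
    (hT.pu.bc c b).symm
  obtain ⟨r, hr, er⟩ := Rh.push_vol hT se (d := 1) rfl (fun x => (ce x).nonempty) cX k0
  rw [pow_one] at er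
  have kW : W.Kah := (hT.po.kah W).2 ⟨_, hT.po.mono (hT.po.add (hT.po.pull c.sf'.hol k0)
    (hT.po.pull c.hg' k0)) fun z v hv => c.imm z v hv.1 hv.2⟩
  have t0 := Rh.nn_ty hT (Rh.kc_nn hT k0)
  have d0 : T.Dg U 1 w0 := hT.po.deg k0
  obtain ⟨σ, hσ⟩ : ∃ σ, σ = r • T.c1 W D - T.pull c.hg' w0 := ⟨_, rfl⟩
  have da : T.Dg X 1 (T.push e (w0 * b)) := by
    rw [CT.Dg, hT.pu.deg se 1 rfl, hT.rg.dg_mul U 1 1 _ _ d0 db]
  obtain ⟨y, hy⟩ : ∃ y, y = r • b - T.pull se.hol (T.push e (w0 * b)) := ⟨_, rfl⟩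
  have ty : y ∈ T.Ty U := hy ▸ sub_mem ((T.Ty U).smul_mem tb _)
    (hT.tp.pull _ (hT.tp.push se (mul_mem t0 tb)))
  have dy : T.Dg U 1 y := by rw [CT.Dg, hy, map_sub, map_smul, db, dg_pull hT _ da]
  have e1 : T.push q1 (σ * T.pull c.hg' b) = y := by
    rw [hσ, sub_mul, smul_mul_assoc, map_sub, map_smul, dg0, ← map_mul, bc, hy]
  have key : ∀ w, T.Kc U w → T.int U (y * w ^ (m + 1)) = 0 := fun w hw => by
    have k : ∀ t : ℝ, 2 * t * T.int U (y * w ^ (m + 1)) +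
        T.int W (σ * σ * T.pull c.sf'.hol w ^ (m + 1)) ≤ 0 := fun t => by
      have := lim hT c.sf' (fun u => ⟨_, h1 u⟩) cU cW kW hw (x := t • T.pull c.hg' b + σ)
        (hσ ▸ add_mem ((T.Ty W).smul_mem (hT.tp.pull _ tb) _) (sub_mem ((T.Ty W).smul_mem
          (hT.tp.c1 W D hc.lb) _) (hT.tp.pull _ t0)))
        (by rw [CT.Dg, hσ, map_add, map_sub, map_smul, map_smul, hT.c1.deg, dg_pull hT _ db,
          dg_pull hT _ d0])
        (by rw [map_add, map_smul, bc, hb, map_zero, smul_zero, zero_add, hσ, map_sub, map_smul,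
          ← mul_one (T.c1 W D), ← map_one (T.pull c.hg'), dg0, bc, er, AlgHom.commutes,
          Algebra.algebraMap_eq_smul_one, sub_self])
      rw [show (t • T.pull c.hg' b + σ) * (t • T.pull c.hg' b + σ) * T.pull c.sf'.hol w ^ (m + 1) =
        (t * t) • (T.pull c.hg' b * T.pull c.hg' b * T.pull c.sf'.hol w ^ (m + 1)) +
        (2 * t) • (σ * T.pull c.hg' b * T.pull c.sf'.hol w ^ (m + 1)) +
        σ * σ * T.pull c.sf'.hol w ^ (m + 1) by algebra, map_add, map_add, map_smul, map_smul,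
        ← hT.pu.int c.sf', ← hT.pu.int c.sf' (σ * _ * _), ← map_pow, hT.pu.proj c.sf',
        hT.pu.proj c.sf', ← map_mul, bc, h2, e1, map_zero, zero_mul, map_zero, smul_zero, zero_add,
        map_pow] at this
      exact this
    by_contra h
    have := k ((1 - T.int W (σ * σ * T.pull c.sf'.hol w ^ (m + 1))) /
      (2 * T.int U (y * w ^ (m + 1))))
    rw [mul_right_comm, mul_div_cancel₀ _ (mul_ne_zero two_ne_zero h)] at this
    linarith
  have y0 : y = 0 := by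
    by_contra h
    obtain ⟨a, ha, k1⟩ := hT.po.opn k0 y ty dy
    have k3 := hT.ho.hr k0 1 m (by omega) y ty dy (Ld.ConnX.top0 hT hU inferInstance
      (hT.rg.dg_mul U (m + 1) 1 _ _ (dg_pow hT d0 _) dy) (by rw [mul_comm]; exact key _ k0)) h
    have k4 := der_nn (der (T.int U) w0 (a • w0 + y) 0 (m + 1) y)
      (by rw [zero_smul, add_zero]; exact key _ k0) fun t ht =>
      (key _ (kc_add hT k0 (Rh.kc_nn hT (hT.po.smul t ht k1)))).ge
    rw [zero_smul, add_zero, Nat.add_sub_cancel, show y * (a • w0 + y) * w0 ^ m =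
      a • (y * w0 ^ (m + 1)) + y * y * w0 ^ m by algebra, map_add, map_smul, key _ k0, smul_zero,
      zero_add] at k4
    have : (0 : ℝ) < ((m + 1 : ℕ) : ℝ) := by positivity
    nlinarith
  refine ⟨r⁻¹ • T.push e (w0 * b), by rw [CT.Dg, map_smul, da], ?_⟩
  rw [map_smul, ← sub_eq_zero.1 (hy.symm.trans y0), inv_smul_smul₀ hr.ne']

theorem wl {T : CT} {n N r d D k δ : ℕ} {V : Mf n} {P : Mp.Eqs r N} {pt : Cm N → V.X}
    {F : Mp.Fam V P pt d D k} {E : VB F.U.X} (h : Cv.Sit T δ F 1 E) (hR : Gm.HRR T) (hn : 1 ≤ n) :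
    (Cv.nsF T F E).WL n := by
  obtain ⟨m, rfl⟩ : ∃ m, n = m + 1 := ⟨n - 1, by omega⟩
  obtain rfl : k = m + 1 := by have := h.dim; omega
  have hT := h.ok
  have s := En.fs_of h
  have ce := Gm.cov T hT hR _ _ _ s.se s.cU s.cX (s.fa hT)
  intro x y z b eb hb
  have cn : ∀ {l : ℕ} (Z : Mf l), T.ps Z (VB.tan l Z.X) 1 ∈ T.Ty Z := fun Z => by
    rw [hT.ch.tan]
    exact neg_mem (hT.tp.c1 _ _ (Rh.lb_can Z))
  have tE : T.ps F.U E 1 ∈ T.Ty F.U := by
    rw [eq_sub_of_add_eq ((Ma.rel.ps T hT F.e_hol h.rel).2.2 1).symm]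
    exact sub_mem (cn _) (hT.tp.pull _ (cn _))
  have tb : b ∈ T.Ty F.U := eb ▸ add_mem (add_mem ((T.Ty F.U).smul_mem
    (hT.tp.pull F.e_hol (Rh.nn_ty hT (Rh.kc_nn hT s.kc))) _)
    ((T.Ty F.U).smul_mem (hT.tp.c1 _ _ (Ma.lbs F h.hyp).2.1) _)) ((T.Ty F.U).smul_mem tE _)
  have db : T.Dg F.U 1 b := by
    rw [CT.Dg, eb, map_add, map_add, map_smul, map_smul, map_smul]
    exact congrArg₂ (· + ·) (congrArg₂ (· + ·) (congrArg _ (dg_pull hT F.e_hol h.ns.dη))
      (congrArg _ h.ns.dτ)) (congrArg _ (h.ns.dE 1))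
  refine ⟨?_, fun h2 => ?_⟩
  · have := WlH.lim hT s.se (fun x => (ce x).nonempty) s.cX s.cU.toPreconnectedSpace h.kU s.kc
      tb db hb
    rwa [← hT.pu.int s.se, ← map_pow, hT.pu.proj s.se] at this
  · obtain ⟨a, da, ea⟩ := wl0 hT s.se s.cU s.cX ce h.kU tb db hb h2
    obtain ⟨c, rfl⟩ := h.ns.b2 a da
    exact ⟨c, ea.trans (map_smul _ _ _)⟩

end Vale.Agent.P280Z.G2
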