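import Vale.Agent.P280Z.G2.All
import Vale.Agent.P280Z.G2.Wl
import Vale.Agent.P280Z.R1.Sk2
import Vale.Agent.P280Z.R1.Xt

/-!
# P280Z, block G2: the case of dimension five and pseudoindex three
-/

namespace Vale.Agent.P280Z.G2

theorem wlx {n : ℕ} (hn : 1 ≤ n) : R1.WLX n := fun _ t _ _ _ _ _ _ _ _ _ _ _ s => wl s t.hrr hn

theorem c51_of (h : R1.Al1 5 Out) : Cv.CS 5 1 := fun T t _ _ _ _ _ _ _ _ _ F E s _ _ =>
  g51 T t.hrr F E s (h _ s.ns (R1.xt T t F E s) (wl s t.hrr (by norm_num)))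

end Vale.Agent.P280Z.G2
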