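import Vale.Agent.P280Z.G2.Defs

/-!
# P280Z, block G2: the contact form (row LA)
-/

open scoped Matrix
open Vale.Agent.P272.K
open Module (finrank)

noncomputable section

namespace Vale.Agent.P280Z.G2

namespace LaH

variable {W T : Type} [AddCommGroup W] [Module ℂ W] [AddCommGroup T] [Module ℂ T]
  {β : W →ₗ[ℂ] W →ₗ[ℂ] ℂ}

theorem surj (nd : ∀ a, (∀ b, β a b = 0) → a = 0) {k : ℕ} (v : Fin k → W)
    (h : ∀ c : Fin k → ℂ, ∑ i, c i • v i = 0 → ∀ i, c i = 0) :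
    Function.Surjective (LinearMap.pi fun i => β (v i)) := by
  by_contra hc
  obtain ⟨f, h0, hf⟩ := Submodule.exists_le_ker_of_lt_top _
    (lt_top_iff_ne_top.2 fun e => hc (LinearMap.range_eq_top.1 e))
  have h1 := h (fun i => f fun j => if i = j then 1 else 0) (nd _ fun b => by
    have := hf ⟨b, rfl⟩
    rw [LinearMap.mem_ker, LinearMap.pi_apply_eq_sum_univ] at this
    simpa [mul_comm] using this)
  exact h0 (LinearMap.ext fun x => by simp [LinearMap.pi_apply_eq_sum_univ f x, h1])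

theorem abs (hK : KRO) [FiniteDimensional ℂ W] [FiniteDimensional ℂ T] {y z : W} {Y Z : T →ₗ[ℂ] W}
    (hW : finrank ℂ W = 7) (hT : finrank ℂ T = 5) (sym : ∀ a b, β a b = β b a)
    (nd : ∀ a, (∀ b, β a b = 0) → a = 0) (ind : ∀ a b : ℂ, a • y + b • z = 0 → a = 0 ∧ b = 0)
    (yy : β y y = 0) (yz : β y z = 0) (zz : β z z = 0) (yY : ∀ v, β y (Y v) = 0)
    (zZ : ∀ v, β z (Z v) = 0) (mix : ∀ v, β y (Z v) + β z (Y v) = 0)
    (onto : ∀ s t : ℂ, s ≠ 0 ∨ t ≠ 0 → ∀ w, β (s • y + t • z) w = 0 →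
      ∃ v, ∃ a b : ℂ, w = s • Y v + t • Z v + a • y + b • z)
    (iso : ∀ (c a b : ℂ) v, Z v = c • Y v + a • y + b • z → β (Y v) (Y v) = 0) (c : ℂ) (v : T)
    (h0 : β z (Y v) = 0) (h : ∀ v', c * β z (Y v') + (β (Z v) (Y v') - β (Z v') (Y v)) = 0) :
    c = 0 ∧ v = 0 := by
  have zy : β z y = 0 := (sym _ _).trans yz
  have s2 := surj nd ![y, z] fun c hc => Fin.forall_fin_two.2 (ind _ _ (by simpa using hc))
  obtain ⟨y1, hy⟩ := s2 ![1, 0]
  obtain ⟨z1, hz⟩ := s2 ![0, 1]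
  have a1 : β y y1 = 1 := congrFun hy 0
  have a2 : β z y1 = 0 := congrFun hy 1
  have a3 : β y z1 = 0 := congrFun hz 0
  have a4 : β z z1 = 1 := congrFun hz 1
  have b1 := (sym _ _).trans a1
  have b2 := (sym _ _).trans a2
  have b3 := (sym _ _).trans a3
  have b4 := (sym _ _).trans a4
  have s4 := surj nd ![y, z, y1, z1] fun c hc => by
    have e : c 0 • y + c 1 • z + c 2 • y1 + c 3 • z1 = 0 := by simpa [Fin.sum_univ_four] using hc
    have e2 : c 2 = 0 := by simpa [yy, yz, a1, a3] using congrArg (β y) e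
    have e3 : c 3 = 0 := by simpa [zy, zz, a2, a4] using congrArg (β z) e
    have e0 := ind (c 0) (c 1) (by simpa [e2, e3] using e)
    intro i
    fin_cases i
    exacts [e0.1, e0.2, e2, e3]
  obtain ⟨E, hE3, hE⟩ : ∃ E : Submodule ℂ W, finrank ℂ E = 3 ∧
      ∀ w, w ∈ E ↔ β y w = 0 ∧ β z w = 0 ∧ β y1 w = 0 ∧ β z1 w = 0 := by
    refine ⟨LinearMap.ker (LinearMap.pi fun i => β (![y, z, y1, z1] i)), ?_, fun w => ?_⟩
    · have := LinearMap.finrank_range_add_finrank_ker (LinearMap.pi fun i => β (![y, z, y1, z1] i))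
      rw [LinearMap.range_eq_top.2 s4, finrank_top, Module.finrank_fin_fun, hW] at this
      omega
    · simp [funext_iff, Fin.forall_fin_succ]
  obtain ⟨v0, hv0⟩ : ∃ v0, β z (Y v0) = 1 := by
    obtain ⟨v0, a, b, e⟩ := onto 1 0 (.inl one_ne_zero) z1 (by simpa using a3)
    exact ⟨v0, by simpa [a4, zy, zz] using (congrArg (β z) e).symm⟩
  obtain ⟨D, hD4, hD⟩ : ∃ D : Submodule ℂ T, finrank ℂ D = 4 ∧ ∀ w, w ∈ D ↔ β z (Y w) = 0 := by
    refine ⟨LinearMap.ker ((β z).comp Y), ?_, fun w => Iff.rfl⟩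
    have := LinearMap.finrank_range_add_finrank_ker ((β z).comp Y)
    rw [LinearMap.range_eq_top.2 fun t => ⟨t • v0, by simp [hv0]⟩, finrank_top, Module.finrank_self,
      hT] at this
    omega
  obtain ⟨π, hπ⟩ : ∃ π : W →ₗ[ℂ] W, ∀ w, π w = w - β y1 w • y - β z1 w • z :=
    ⟨LinearMap.id - (β y1).smulRight y - (β z1).smulRight z, fun _ => rfl⟩
  have p1 : ∀ w, β y w = 0 → β z w = 0 → π w ∈ E := fun w k k' =>
    (hE _).2 (by simp [hπ, k, k', yy, yz, zy, zz, b1, b2, b3, b4])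
  have p2 : ∀ w w', β y w = 0 → β z w = 0 → β y w' = 0 → β z w' = 0 → β (π w) (π w') = β w w' :=
    fun w w' k1 k2 k3 k4 => by
      simp [hπ, k3, k4, yy, yz, zy, zz, (sym _ _).trans k1, (sym _ _).trans k2]
  have p3 : ∀ w ∈ E, π w = w := fun w k => by simp [hπ, ((hE w).1 k).2.2]
  have p4 : π y = 0 := by simp [hπ, b1, b3]
  have p5 : π z = 0 := by simp [hπ, b2, b4]
  have yZ : ∀ w ∈ D, β y (Z w) = 0 := fun w k => by simpa [(hD w).1 k] using mix w
  have hY : ∀ w ∈ D, (π.comp Y) w ∈ E := fun w k => p1 _ (yY w) ((hD w).1 k)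
  have hZ : ∀ w ∈ D, (π.comp Z) w ∈ E := fun w k => p1 _ (yZ w k) (zZ w)
  have key := hK D E (β.compl₁₂ E.subtype E.subtype) ((π.comp Y).restrict hY)
    ((π.comp Z).restrict hZ) hD4 hE3 (fun a b => sym a b)
    (fun ⟨a, ha⟩ k => Subtype.ext (nd a fun w => by
      obtain ⟨k1, k2, k3, k4⟩ := (hE a).1 ha
      have := k ⟨π (w - β y w • y1 - β z w • z1), p1 _ (by simp [a1, a3]) (by simp [a2, a4])⟩
      simpa [hπ, (sym _ _).trans k1, (sym _ _).trans k2, (sym _ _).trans k3, (sym _ _).trans k4]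
        using this))
    (fun ⟨a, ha⟩ => by
      obtain ⟨k1, k2, -⟩ := (hE a).1 ha
      obtain ⟨w, s, t, e⟩ := onto 1 0 (.inl one_ne_zero) a (by simpa using k1)
      refine ⟨⟨w, (hD w).2 (by simpa [k2, zy, zz] using (congrArg (β z) e).symm)⟩, Subtype.ext ?_⟩
      simpa [p3 a ha, p4, p5] using (congrArg π e).symm)
    (fun r ⟨a, ha⟩ => by
      obtain ⟨k1, k2, -⟩ := (hE a).1 ha
      obtain ⟨w, s, t, e⟩ := onto (-r) 1 (.inr one_ne_zero) a (by simp [k1, k2])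
      have k3 : β y (Z w) = 0 := by simpa [k1, yy, yz, yY] using (congrArg (β y) e).symm
      refine ⟨⟨w, (hD w).2 (by simpa [k3] using mix w)⟩, Subtype.ext ?_⟩
      simpa [p3 a ha, p4, p5, neg_add_eq_sub] using (congrArg π e).symm)
    (fun r ⟨w, hw⟩ e => by
      have e1 : π (Z w) = r • π (Y w) := congrArg Subtype.val e
      refine (p2 _ _ (yY w) ((hD w).1 hw) (yY w) ((hD w).1 hw)).trans (iso r
        (β y1 (Z w) - r * β y1 (Y w)) (β z1 (Z w) - r * β z1 (Y w)) w ?_)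
      rw [hπ, hπ] at e1
      linear_combination (norm := module) e1)
    ⟨v, (hD v).2 h0⟩ fun ⟨w, hw⟩ => by
      have k1 := p2 _ _ (yZ v ((hD v).2 h0)) (zZ v) (yY w) ((hD w).1 hw)
      have k2 := p2 _ _ (yZ w hw) (zZ w) (yY v) h0
      have k3 := h w
      rw [(hD w).1 hw, mul_zero, zero_add, sub_eq_zero] at k3
      exact k1.trans (k3.trans k2.symm)
  have hv : v = 0 := congrArg Subtype.val key
  exact ⟨by simpa [hv, hv0] using h v0, hv⟩

end LaH

/-- row LA -/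
theorem la_of (hK : KRO) : LA := by
  intro B y z Y Z ⟨hd, det, onto⟩ iso c v h0 h
  have e := Matrix.toBilin'_apply' B
  refine LaH.abs (β := Matrix.toBilin' B) hK (by simp) (by simp) (fun a b => ?_) (fun a k => ?_)
    hd.ind ((e _ _).trans hd.yy) ((e _ _).trans hd.yz) ((e _ _).trans hd.zz)
    (fun v => (e _ _).trans (hd.yY v)) (fun v => (e _ _).trans (hd.zZ v))
    (fun v => by rw [e, e]; exact hd.mix v) (fun s t k w k' => onto s t k w ((e _ _).symm.trans k'))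
    (fun c a b v k => (e _ _).trans (iso c a b v k)) c v ((e _ _).trans h0)
    fun v' => by rw [e, e, e]; exact h v'
  · rw [e, e, Matrix.dotProduct_mulVec, ← Matrix.mulVec_transpose, hd.sym, dotProduct_comm]
  · exact (Matrix.nondegenerate_of_det_ne_zero det).eq_zero_of_ortho fun w => (e _ _).symm.trans (k w)

end Vale.Agent.P280Z.G2
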