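import Vale.Agent.P280Z.G2.Defs
import Vale.Agent.P280Z.Ma.Ex

/-!
# P280Z, block G2: the numerical data
-/

open scoped Manifold ContDiff Topology Matrix
open Set Filter
open Vale.Agent.P272.K Vale.Agent.P285.H281.FD Vale.Agent.P281Z
open Vale.Agent.P277.HD (pull)

noncomputable section

namespace Vale.Agent.P280Z.G2

theorem num : NUM := by
  intro T hR N r d D δ V P pt F E h o
  have hT := h.ok
  have s := En.fs_of h
  have ea := Ma.aa_eq hT F h.hyp E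
  have kL := Ma.kc_lam hT F h.hyp
  have cK := Ma.conn_K F h.cU
  have n := h.ns
  have d0 : (0 : ℝ) < d := by exact_mod_cast h.hyp.pos
  obtain ⟨l1, l2, -⟩ := Ma.lbs F h.hyp
  set S := Cv.nsF T F E with hS
  set η := (d : ℝ)⁻¹ • T.c1 V (O1 P pt) with hη
  set w := (d : ℝ)⁻¹ • T.c1 F.K (Lam F) with hw
  obtain ⟨κ, hκ⟩ : ∃ κ, κ = (1 / 3 : ℝ) • w := ⟨_, rfl⟩
  obtain ⟨k, hk⟩ : ∃ k, T.pull F.p_hol κ = k := ⟨_, rfl⟩
  obtain ⟨x, hx⟩ : ∃ x, T.pull F.e_hol η = x := ⟨_, rfl⟩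
  have e0 : S.hh = x := hx
  have e1 : S.aa = (3 : ℝ) • k := by
    rw [show S.aa = _ from ea, ← hk, hκ, map_smul (T.pull F.p_hol) (1 / 3 : ℝ)]
    module
  have e2 : S.hc = (3 : ℝ) • k - x := by rw [← e1, NS.aa, e0, add_sub_cancel_left]
  have e3 : S.τ = (2 : ℝ) • x - (3 : ℝ) • k := by
    have := e2
    rw [NS.hc, e0] at this
    linear_combination (norm := module) -this
  have e4 : S.pE 1 = (2 : ℝ) • k - x := by
    have := o.pE
    rw [e2, e0] at this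
    linear_combination (norm := module) (1 / 3 : ℝ) • this
  have e5 : S.es (S.pX 1) = (3 : ℝ) • x := by
    rw [n.c1, map_smul, ← e0]
    norm_num
    rfl
  have rel : k * k = x * k - (1 / 3 : ℝ) • (x * x) := by
    have := o.rel
    rw [e2, e0] at this
    have b : (9 : ℝ) • (k * k - (x * k - (1 / 3 : ℝ) • (x * x))) = 0 := by
      rw [← this]
      algebra
    exact sub_eq_zero.1 ((smul_eq_zero_iff_right (by norm_num)).1 b)
  have el0 : ∀ a, T.push F.e (T.pull F.e_hol a) = 0 := fun a => by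
    rw [← one_mul (T.pull F.e_hol a), hT.pu.proj s.se, Ma.push_one hT s.se, zero_mul]
  have de : T.push F.e k = 1 := by
    have b : T.push F.e (-S.τ) = 3 := o.el
    rw [e3, map_neg, map_sub, map_smul, map_smul, ← hx, el0] at b
    have b2 : (3 : ℝ) • (T.push F.e k - 1) = 0 := by
      rw [smul_sub, ← sub_eq_zero.2 b]
      algebra
    exact sub_eq_zero.1 ((smul_eq_zero_iff_right (by norm_num)).1 b2)
  have v1 : T.int F.U (k * x ^ 5) = 18 := by
    rw [← hT.pu.int s.se, ← hx, ← map_pow, hT.pu.proj s.se, de, one_mul]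
    exact o.vol
  have v2 : T.int F.U (x ^ 6) = 0 := by
    rw [← hT.pu.int s.se, ← hx, ← map_pow, el0, map_zero]
  have dp : T.push F.p x = 1 := by
    have p1 : T.pull F.p_hol (T.push F.p x) = 1 := hx ▸ n.Tη
    have g0 : T.Dg F.K 0 (T.push F.p x) := by
      unfold CT.Dg
      rw [hT.pu.deg s.sp 1 rfl, show T.pr F.U (0 + 1) x = x from hx ▸ Ma.dg_pull hT F.e_hol n.dη]
    obtain ⟨c, hc⟩ := hT.rg.h0 _ cK.toPreconnectedSpace _ g0
    rw [hc, AlgHom.commutes] at p1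
    have b := congrArg (fun y => T.int F.U (y * (k * x ^ 5))) p1
    simp only [← Algebra.smul_def, map_smul, one_mul, v1, smul_eq_mul] at b
    rw [hc, show c = 1 by linarith, map_one]
  have pp : ∀ y, T.push F.p (x * T.pull F.p_hol y) = y := fun y => by
    rw [hT.pu.proj s.sp, dp, one_mul]
  refine ⟨η, κ, x, k, s.sp, s.se, hx, hk, s.cX, cK, s.cU,
    Gm.cov T hT hR _ _ _ s.se s.cU s.cX (s.fa hT), fun l => ?_, s.kc,
    hκ ▸ hT.po.smul _ (by norm_num) kL, ?_, fun Z i y hi => ?_, n.b2, ?_, ?_, ?_, dp, de, rel, ?_⟩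
  · exact ⟨Ma.p_onto F l, s.cp l⟩
  · obtain ⟨c, hc⟩ := Ma.up F h.hyp (Ma.kn F h.hyp)
    have l3 := lb_pow l1 c
    have b := hT.c1.pos _ _ (lb_mul l2 (F.p_hol.lb l3)) hc
    rw [hT.c1.mul _ _ _ l2 (F.p_hol.lb l3), hT.c1.pull F.p_hol _ l3, hT.c1.pow _ _ _ l1,
      show T.c1 F.U (Tb F) = _ from e3, show T.c1 F.K (Lam F) = ((3 : ℝ) * d) • κ by
        rw [hκ, hw, smul_smul, smul_smul, show 3 * (d : ℝ) * (1 / 3) * (d : ℝ)⁻¹ = 1 by
          field_simp, one_smul], map_smul, map_smul, hk] at b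
    refine ⟨2, c * (3 * d) - 3, ?_⟩
    rwa [show (2 : ℝ) • x + ((c : ℝ) * (3 * d) - 3) • k =
      (2 : ℝ) • x - (3 : ℝ) • k + (c : ℝ) • ((3 : ℝ) * d) • k by module]
  · have b := hT.po.smul (1 / 3) (by norm_num) (h.tau Z i y hi)
    have b2 : T.pull hi.hol x = 0 := hx ▸ (En.fb hT s.se h.dim h.rel hi).2 0 _ n.dη
    rw [show T.c1 F.U (Tb F) = _ from e3, map_neg, map_sub, map_smul, map_smul, b2] at b
    rwa [show T.pull hi.hol k = (1 / 3 : ℝ) • -((2 : ℝ) • 0 - (3 : ℝ) • T.pull hi.hol k) by module]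
  · rw [s.can]
    norm_num
  · rw [← neg_inj, ← hT.ch.tan, ← pp (T.ps _ _ 1)]
    have b := n.ses 1
    rw [e4, e5, e3, pow_one] at b
    rw [show T.pull F.p_hol (T.ps F.K (VB.tan 5 F.K.X) 1) = T.pull F.p_hol ((5 : ℝ) • κ) by
      rw [map_smul, hk]
      change S.pK 1 = _
      linear_combination (norm := module) -b, pp]
    module
  · rw [← neg_inj, ← hT.ch.tan, (Ma.rel.ps T hT F.e_hol h.rel).2.2 1]
    change S.pE 1 + S.es (S.pX 1) = _
    rw [e4, e5]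
    module
  · rw [← pp (κ ^ 5), hT.pu.int s.sp, map_pow, hk, show x * k ^ 5 =
      (1 / 9 : ℝ) • (k * x ^ 5) - (1 / 9 : ℝ) • x ^ 6 from ?_, map_sub, map_smul, map_smul, v1, v2]
    · norm_num
    have b : (3 : T.H F.U) * (k * k) = 3 * (x * k) - x * x := by
      rw [rel]
      algebra
    have b2 : (9 : ℝ) • (x * k ^ 5 - ((1 / 9 : ℝ) • (k * x ^ 5) - (1 / 9 : ℝ) • x ^ 6)) =
        9 * (x * k ^ 5) - (k * x ^ 5 - x ^ 6) := by algebra
    refine sub_eq_zero.1 ((smul_eq_zero_iff_right (by norm_num : (9 : ℝ) ≠ 0)).1 (b2.trans ?_))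
    linear_combination (3 * x * k ^ 3 + 3 * x ^ 2 * k ^ 2 + 2 * x ^ 3 * k + x ^ 4) * b

end Vale.Agent.P280Z.G2
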